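import Vale.Agent.P167.H108.Few2
import Vale.Agent.P167.QC.CrossW

/-!
# P167, `0 < q < 1`: the crossing numbers of the interfaces are tight

`KfT Q`: the number of the crossing clusters which do not touch the frozen squares has an exponential
tail, if the frozen squares belong to few clusters. `crossWF`: the input `I_crossW`.
-/

set_option autoImplicit false

namespace Vale.Agent.P167.H108

open Set Filter Topology MeasureTheory
open scoped ENNReal
open Vale.Agent.P167.E6 Vale.Agent.P167.E2 Vale.Agent.P167.SLE Vale.Agent.P167.H161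
open Vale.Agent.P167.FK (Good Pr Ex)
open Vale.Agent.P167.H166 (bxx)
open Vale.Agent.P167.H718 (Dq wE etaQ mem_Dq' mem_wE good_etaQ)
open Vale.Agent.P167.QC
open Vale.Agent.P153.R2.C1 (Cross reparam)
open Vale.Agent.P153.R2.Final (dom circ toC)

/-- The tail of the number of the fresh crossing clusters. -/
def KfT (Q : ℝ) : Prop := ∀ m : ℕ, ∃ l C : ℝ, 0 < l ∧ 0 < C ∧ ∀ (r μ : ℤ), 1 ≤ μ → 2 * μ ≤ r →
  ∀ (x : ℤ × ℤ) (R' : ℤ), 64 * r ≤ R' → ∀ (D : Finset (ℤ × ℤ)) (η : Cfg), Good η →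
  FewA m μ (bxx x R') D η → ∀ j : ℕ,
    Pr Q D η {ω | j ≤ QC.kf x r R' (D ∩ bxx x R') ω true 0} ≤ C * Real.exp (-(l * j)) ∧
    Pr Q D η {ω | j ≤ QC.kf x r R' (D ∩ bxx x R') ω false 1} ≤ C * Real.exp (-(l * j))

open Classical in
/-- **Tail of the number of the excursions of the interface**, for a fixed number of pieces. -/
theorem rexc_tailF {q : ℝ} (hq0 : 0 < q) (hK : KfT (√q)) (M : ℕ) : ∃ T : ℕ → ℝ,
    Tendsto T atTop (𝓝 0) ∧ ∀ (n : ℕ) (p : ZMod n → ℤ × ℤ) (S : Finset (ℤ × ℤ)) (k : ℕ),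
    IsPolygon p → Encloses p S → 0 < k → k < n → ∀ (c : ℕ → ℕ), Monotone c →
    (∀ i < n, c i < M) → ∀ ρ : ℤ, 0 ≤ ρ → (∀ i j, i < n → j < n → c i = c j →
      nm (H192.ro (p i) - H192.ro (p j)) ≤ ρ) →
    ∀ (x : ℤ × ℤ) (r R : ℤ), 2 * (ρ + 5) ≤ r → 64 * r + ρ + 5 ≤ R → ∀ j : ℕ,
      Final.mean q p k S (fun A => if RExc p k A x r R (2 * M + 2 * j - 1) then 1 else 0) ≤
        T j := by
  have hQ0 : (0 : ℝ) < √q := Real.sqrt_pos.2 hq0
  obtain ⟨l, C, hl, hC, h⟩ := hK (M + 1)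
  refine ⟨fun j => 2 * (C * Real.exp (-(l * j))), ?_, fun n p S k hp hS h0 hk c hc hM ρ hρ0 hρ x r R
    hr hR j => ?_⟩
  · have h1 : Tendsto (fun j : ℕ => l * (j : ℝ)) atTop atTop :=
      tendsto_natCast_atTop_atTop.const_mul_atTop hl
    have h2 := ((Real.tendsto_exp_neg_atTop_nhds_zero.comp h1).const_mul C).const_mul 2
    simpa using h2
  obtain ⟨t1, t2⟩ := h r (ρ + 5) (by omega) hr x (64 * r) le_rfl (Dq S p k) (etaQ p k) good_etaQ
    (fewA_poly hp hS hc hM hρ0 hρ _) j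
  have hle := mean_le_Pr (k := k) hq0 hp hS (fun A => RExc p k A x r R (2 * M + 2 * j - 1))
    ({ω | j ≤ QC.kf x r (64 * r) (Dq S p k ∩ bxx x (64 * r)) ω true 0} ∪
      {ω | j ≤ QC.kf x r (64 * r) (Dq S p k ∩ bxx x (64 * r)) ω false 1}) fun A hA hE => ?_
  · refine hle.trans ((FKA.Pr_union_le hQ0 _ _).trans ?_)
    show _ ≤ 2 * (C * Real.exp (-(l * j)))
    linarith
  · have h5 := rexc_kf hp hS h0 hk hc hM hρ0 hρ (by omega) hR hA hE
    by_cases h7 : j ≤ QC.kf x r (64 * r) (Dq S p k ∩ bxx x (64 * r)) (om p k A) true 0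
    · exact Or.inl h7
    · refine Or.inr ?_
      show j ≤ QC.kf x r (64 * r) (Dq S p k ∩ bxx x (64 * r)) (om p k A) false 1
      omega

/-- The radii. -/
theorem radiiF {d δ : ℝ} (hd : 0 < d) (hδ : 0 < δ) (h : δ < d / 40000) :
    64 * (2 * (d / 4096) / δ + 3) + 6 * (d / 49152) / δ + 5 ≤
      (d - δ - d / 4096) / (2 * δ) - 4 ∧ 8 ≤ d / 4096 / δ ∧
      6 * (d / 49152) / δ = d / 4096 / δ / 2 := by
  have h0 : 40000 < d / δ := by
    rw [lt_div_iff₀ hδ]
    rw [lt_div_iff₀ (by norm_num)] at h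
    linarith
  have h2 : 64 * (2 * (d / 4096) / δ + 3) = d / δ / 32 + 192 := by
    field_simp
    ring
  have h3 : 6 * (d / 49152) / δ = d / δ / 8192 := by
    field_simp
    ring
  have h4 : (d - δ - d / 4096) / (2 * δ) = (d / δ) / 2 - 1 / 2 - (d / δ) / 8192 := by
    field_simp
    ring
  have h5 : d / 4096 / δ = d / δ / 4096 := by
    field_simp
  rw [h2, h3, h4, h5]
  refine ⟨by linarith, by linarith, by ring⟩

open Classical in
/-- **The numbers of crossings of the interface are tight**, lattice form. -/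
theorem scross_meanF {q : ℝ} (hq0 : 0 < q) (hK : KfT (√q)) {Φ : (ℝ × ℝ) ≃ₜ (ℝ × ℝ)} {δ : ℕ → ℝ} {N k : ℕ → ℕ}
    {p : ∀ n, ZMod (N n) → ℤ × ℤ} {S : ℕ → Finset (ℤ × ℤ)} (h : Approx Φ δ N k p S) (y : ℂ)
    {r r' : ℝ} (h0 : 0 ≤ r) (hr : r < r') {e : ℝ} (he : 0 < e) : ∃ m : ℕ, ∀ᶠ n in atTop,
      Final.mean q (p n) (k n) (S n) (fun A => if SCross (fun j => mid (δ n) (run (p n) (k n) A j))
        (len (p n) (k n) A) y r r' m then 1 else 0) ≤ e := by
  obtain ⟨h1, h2, h3⟩ := h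
  set d : ℝ := (r' - r) / 2 with hd
  have hd0 : 0 < d := by rw [hd]; linarith
  set ρ₀ : ℝ := d / 4096 with hρ₀
  have hρpos : 0 < ρ₀ := by rw [hρ₀]; positivity
  set ε : ℝ := d / 49152 with hε
  have hε0 : 0 < ε := by rw [hε]; positivity
  obtain ⟨M, hM⟩ := blocks Φ hε0
  obtain ⟨T, hT, hκ2⟩ := rexc_tailF hq0 hK M
  obtain ⟨Zs, -, hZf, hZc⟩ := (isCompact_closedBall y r').finite_cover_balls hρpos
  set Z : Finset ℂ := hZf.toFinset with hZ
  have hZ1 : ∀ u, dist u y ≤ r' → ∃ z ∈ Z, dist u z ≤ ρ₀ := by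
    intro u hu
    have := hZc (Metric.mem_closedBall.2 hu)
    simp only [mem_iUnion, Metric.mem_ball] at this
    obtain ⟨z, hz, hz'⟩ := this
    exact ⟨z, hZf.mem_toFinset.2 hz, hz'.le⟩
  have hZpos : 0 < Z.card := by
    obtain ⟨z, hz, -⟩ := hZ1 y (by rw [dist_self]; linarith)
    exact Finset.card_pos.2 ⟨z, hz⟩
  -- the number of crossings
  obtain ⟨l, hl⟩ : ∃ l : ℕ, Z.card * T l ≤ e := by
    have h4 : Tendsto (fun l : ℕ => (Z.card : ℝ) * T l) atTop (𝓝 0) := by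
      simpa using hT.const_mul (Z.card : ℝ)
    exact ((h4.eventually (gt_mem_nhds he)).exists).imp fun _ h => h.le
  refine ⟨Z.card * (2 * l + 2 * M), ?_⟩
  have hdiv : Z.card * (2 * l + 2 * M) / Z.card = 2 * l + 2 * M :=
    Nat.mul_div_cancel_left _ hZpos
  filter_upwards [h2.eventually (gt_mem_nhds (show (0 : ℝ) < d / 40000 by positivity)),
    h3 ε hε0] with n hn1 hn2
  obtain ⟨s, hs, hs0, -, hsN, hsd⟩ := hn2
  obtain ⟨hδ, hk0, hkN, hp, hS⟩ := h1 n
  obtain ⟨c, hc, hcM, hcρ⟩ := hM (δ n) (N n) (p n) s hδ hs hs0 hsN hsd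
  obtain ⟨hrad, hrad2, hrad3⟩ := radiiF hd0 hδ hn1
  -- radii
  set rb : ℤ := ⌈2 * ρ₀ / δ n⌉ + 2 with hrb
  set Rb : ℤ := ⌊(d - δ n - ρ₀) / (2 * δ n)⌋ - 3 with hRb
  set ρ : ℤ := ⌊6 * ε / δ n⌋ with hρ
  have b1 := Int.le_ceil (2 * ρ₀ / δ n)
  have b2 := Int.ceil_lt_add_one (2 * ρ₀ / δ n)
  have b3 := Int.floor_le ((d - δ n - ρ₀) / (2 * δ n))
  have b4 := Int.lt_floor_add_one ((d - δ n - ρ₀) / (2 * δ n))
  have b5 := Int.floor_le (6 * ε / δ n)
  have b6 : 0 ≤ ρ := Int.floor_nonneg.2 (by positivity)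
  have b7 : 2 * (ρ + 5) ≤ rb := by
    have : 2 * ((ρ : ℝ) + 5) ≤ (rb : ℝ) := by
      have c1 : 2 * ρ₀ / δ n + 2 ≤ (rb : ℝ) := by
        rw [hrb]; push_cast; linarith
      have c4 : (ρ : ℝ) ≤ 6 * ε / δ n := b5
      have c5 : 2 * ρ₀ / δ n = 2 * (ρ₀ / δ n) := by ring
      linarith
    exact_mod_cast this
  have b8 : 64 * rb + ρ + 5 ≤ Rb := by
    have : (64 : ℝ) * (rb : ℝ) + (ρ : ℝ) + 5 ≤ (Rb : ℝ) := by
      have c1 : (rb : ℝ) ≤ 2 * ρ₀ / δ n + 3 := by
        rw [hrb]; push_cast; linarith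
      have c3 : (Rb : ℝ) ≥ (d - δ n - ρ₀) / (2 * δ n) - 4 := by
        rw [hRb]; push_cast; linarith
      have c4 : (ρ : ℝ) ≤ 6 * ε / δ n := b5
      linarith
    exact_mod_cast this
  -- the estimate
  have key : ∀ A : Finset (Sym2 (ℤ × ℤ)), (if SCross (fun j => mid (δ n) (run (p n) (k n) A j))
        (len (p n) (k n) A) y r r' (Z.card * (2 * l + 2 * M)) then (1 : ℝ) else 0) ≤
      ∑ z ∈ Z, if RExc (p n) (k n) A (rnd (δ n) z) rb Rb
        (Z.card * (2 * l + 2 * M) / Z.card) then (1 : ℝ) else 0 := by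
    intro A
    split_ifs with hA
    · have h5 : r + d + δ n ≤ r' := by
        have : δ n < d := by
          refine hn1.trans_le ?_
          rw [div_le_iff₀ (by positivity)]
          linarith
        rw [hd] at this ⊢
        linarith
      obtain ⟨z, hz, hz1⟩ := hA.cover (r₁ := r + d) (δ := δ n) (ρ₀ := ρ₀)
        (fun j _ => by rw [run_succ]; exact mid_next (δ n) hδ.le _ _) hδ.le (by linarith) h5
        (by linarith) hZ1
      have h6 : r' - (r + d) - δ n - ρ₀ = d - δ n - ρ₀ := by rw [hd]; ring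
      rw [h6] at hz1
      have h7 : RExc (p n) (k n) A (rnd (δ n) z) rb Rb (Z.card * (2 * l + 2 * M) / Z.card) := by
        refine rexc_of_scross hδ ?_ ?_ hz1
        · rw [hrb]; push_cast; linarith
        · have h8 : (d - δ n - ρ₀) / δ n = 2 * ((d - δ n - ρ₀) / (2 * δ n)) := by
            field_simp
          rw [h8, hRb]
          push_cast
          linarith
      calc (1 : ℝ) = if RExc (p n) (k n) A (rnd (δ n) z) rb Rb
            (Z.card * (2 * l + 2 * M) / Z.card) then (1 : ℝ) else 0 := by rw [if_pos h7]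
        _ ≤ _ := Finset.single_le_sum (f := fun z => if RExc (p n) (k n) A (rnd (δ n) z) rb Rb
            (Z.card * (2 * l + 2 * M) / Z.card) then (1 : ℝ) else 0)
            (fun z _ => by
              show (0 : ℝ) ≤ if RExc (p n) (k n) A (rnd (δ n) z) rb Rb
                (Z.card * (2 * l + 2 * M) / Z.card) then (1 : ℝ) else 0
              split_ifs <;> norm_num) hz
    · exact Finset.sum_nonneg fun z _ => by split_ifs <;> norm_num
  refine (mean_mono' hq0 fun A _ => key A).trans ?_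
  rw [mean_sum']
  refine le_trans ?_ hl
  rw [← nsmul_eq_mul]
  refine Finset.sum_le_card_nsmul _ _ _ fun z _ => ?_
  have h9 := hκ2 (N n) (p n) (S n) (k n) hp hS hk0 hkN c hc hcM ρ b6
    (fun i j hi hj hij => Int.le_floor.2 (hcρ i j hi hj hij)) (rnd (δ n) z) rb Rb b7 b8 l
  refine le_trans (mean_mono' hq0 fun A _ => ?_) h9
  rw [hdiv]
  by_cases h10 : RExc (p n) (k n) A (rnd (δ n) z) rb Rb (2 * l + 2 * M)
  · rw [if_pos h10, if_pos (RExc.anti h10 (by omega))]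
  · rw [if_neg h10]
    split_ifs <;> norm_num

open Classical in
/-- **The numbers of crossings are tight** for all curves near the interfaces. -/
theorem near_meanF {q : ℝ} (hq0 : 0 < q) (hK : KfT (√q)) {Φ : (ℝ × ℝ) ≃ₜ (ℝ × ℝ)} {δ : ℕ → ℝ} {N k : ℕ → ℕ}
    {p : ∀ n, ZMod (N n) → ℤ × ℤ} {S : ℕ → Finset (ℤ × ℤ)} (h : Approx Φ δ N k p S)
    {X : ∀ n, Finset (Sym2 (ℤ × ℤ)) → C(unitInterval, ℂ)} {η : ℕ → ℝ} (hη : Tendsto η atTop (𝓝 0))
    (hX : ∀ n, ∀ A ⊆ edges (S n), Near (fun j => mid (δ n) (run (p n) (k n) A j))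
      (len (p n) (k n) A) (X n A) (η n)) (y : ℂ)
    {r r' : ℝ} (h0 : 0 ≤ r) (hr : r < r') {e : ℝ} (he : 0 < e) : ∃ m : ℕ, ∀ᶠ n in atTop,
      Final.mean q (p n) (k n) (S n) (fun A => if Cross (X n A) y r r' m then 1 else 0) ≤ e := by
  obtain ⟨m, hm⟩ := scross_meanF hq0 hK h y (r := r + (r' - r) / 3) (r' := r' - (r' - r) / 3)
    (by linarith) (by linarith) he
  refine ⟨m, ?_⟩
  filter_upwards [hm, hη.eventually (gt_mem_nhds (show (0 : ℝ) < (r' - r) / 3 by linarith))]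
    with n hn1 hn2
  refine (mean_mono' hq0 fun A hA => ?_).trans hn1
  split_ifs with h1 h2 h2
  · exact le_rfl
  · exact absurd ((hX n A hA).cross (by linarith) (by linarith) h1) h2
  · exact zero_le_one
  · exact le_rfl

/-- **The crossing numbers are tight**. -/
theorem crossWF {q : ℝ} (hq0 : 0 < q) (hK : KfT (√q)) : QE.I_crossW (QE.wq q) := by
  classical
  intro Φ δ N k p S h y r hr e' he'
  obtain ⟨e, he, heq⟩ := ENNReal.lt_iff_exists_nnreal_btwn.1 he'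
  have he0 : (0 : ℝ) < e := by exact_mod_cast he
  have hη' : Tendsto (fun n => δ n + 2 * δ n) atTop (𝓝 0) := by
    simpa using h.2.1.add (h.2.1.const_mul 2)
  obtain ⟨m, hm⟩ := near_meanF hq0 hK h hη' (X := fun n A => Xc (p n) (k n) (δ n) A)
    (fun n A hA => by
      obtain ⟨h1, h2, h3, h4, h5⟩ := h.1 n
      have h6 := near_crv h1.le h4 h5 h2 h3 hA
      refine h6.reparam (OrderIso.refl _) ?_
      have h7 : reparam (crv (p n) (k n) (δ n) A) (OrderIso.refl unitInterval) =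
          crv (p n) (k n) (δ n) A := by
        ext t
        rfl
      rw [h7]
      exact dist_crv_Xc h4 h5 h2 h3 hA h1.le) y hr.le (show r < 3 * r by linarith) he0
  refine ⟨m, ?_⟩
  filter_upwards [hm] with n hn
  refine le_trans (lwt_le hq0 _ (fun A => Cross (Xc (p n) (k n) (δ n) A) y r (3 * r) m)
    (fun A hA => hA) hn) ?_
  rw [ENNReal.ofReal_coe_nnreal]
  exact heq.le

end Vale.Agent.P167.H108
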