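import Vale.Agent.P167.H108.RowX
import Vale.Agent.P167.QC.Lat

/-!
# P167, `0 < q ≤ 1`: the frozen squares of a polygon belong to few clusters (exterior squares)

Walks through the exterior squares of a rectangle, until a square of the domain is met.
-/

set_option autoImplicit false

namespace Vale.Agent.P167.H108

open Vale.Agent.P145.FB (PStep step_of_corners)
open Vale.Agent.P167.E6 Vale.Agent.P167.E2
open Vale.Agent.P167.FKA (Cor rtg_symm)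
open Vale.Agent.P167.H166 (rtg_mono)
open Vale.Agent.P167.H262 (Rsq mem_Rsq)
open Vale.Agent.P167.H161 (nm_sub_le nm_sub_lt face_key sq_near fin4_ofNat G_succ)
open Vale.Agent.P167.QC (odd_corner exists_form fin4_back)
open Relation

variable {F : Set (ℤ × ℤ)}

/-! ### Walks -/

/-- Odd corners of a square of `F`. -/
theorem jo {v s t : ℤ × ℤ} (hv : v ∈ F) (hs : Cor v s) (ht : Cor v t)
    (h1 : Odd (s.1 + s.2)) (h2 : Odd (t.1 + t.2)) : ReflTransGen (PStep F) s t := by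
  rw [Int.odd_iff] at h1 h2
  by_cases h : s = t
  · rw [h]
  · exact ReflTransGen.single (step_of_corners (m := v.1) (n := v.2) (e := 1) hv hs.1 hs.2 ht.1
      ht.2 h1 h2 h)

theorem walk {f : ℕ → ℤ × ℤ} (hf : ∀ i, ∃ s : ℤ × ℤ, Odd (s.1 + s.2) ∧ Cor (f i) s ∧
    Cor (f (i + 1)) s) : ∀ {L : ℕ}, (∀ i ≤ L, f i ∈ F) → ∀ {s t : ℤ × ℤ}, Cor (f 0) s →
      Odd (s.1 + s.2) → Cor (f L) t → Odd (t.1 + t.2) → ReflTransGen (PStep F) s t := by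
  intro L
  induction L with
  | zero =>
    intro h s t hs hso ht hto
    exact jo (h 0 le_rfl) hs ht hso hto
  | succ L ih =>
    intro h s t hs hso ht hto
    obtain ⟨u, hu, hu1, hu2⟩ := hf L
    exact (ih (fun i hi => h i (by omega)) hs hso hu1 hu).trans (jo (h _ le_rfl) hu2 ht hu hto)

/-- The first square which is not in `F`. -/
theorem hit {f : ℕ → ℤ × ℤ} (hf : ∀ i, ∃ s : ℤ × ℤ, Odd (s.1 + s.2) ∧ Cor (f i) s ∧
    Cor (f (i + 1)) s) {L : ℕ} (h0 : f 0 ∈ F) (hL : f L ∉ F) : ∃ i < L, f i ∈ F ∧ f (i + 1) ∉ F ∧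
      ∃ u : ℤ × ℤ, Odd (u.1 + u.2) ∧ Cor (f i) u ∧ Cor (f (i + 1)) u ∧
        ∀ s : ℤ × ℤ, Cor (f 0) s → Odd (s.1 + s.2) →
          ReflTransGen (PStep {z | z ∈ F ∧ ∃ j ≤ L, z = f j}) s u := by
  classical
  have hex : ∃ i, f i ∉ F := ⟨L, hL⟩
  set N := Nat.find hex with hN
  have h1 : f N ∉ F := Nat.find_spec hex
  have h2 : N ≤ L := Nat.find_min' hex hL
  have h3 : N ≠ 0 := by
    intro h
    rw [h] at h1
    exact h1 h0
  obtain ⟨i, hi⟩ : ∃ i, N = i + 1 := ⟨N - 1, by omega⟩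
  have h4 : ∀ j ≤ i, f j ∈ F := by
    intro j hj
    by_contra h
    exact Nat.find_min hex (m := j) (by omega) h
  obtain ⟨u, hu, hu1, hu2⟩ := hf i
  refine ⟨i, by omega, h4 i le_rfl, by rw [← hi]; exact h1, u, hu, hu1, hu2, fun s hs hso => ?_⟩
  exact walk (F := {z | z ∈ F ∧ ∃ j ≤ L, z = f j}) hf (fun j hj => ⟨h4 j hj, j, by omega, rfl⟩) hs
    hso hu1 hu

/-- Neighbouring squares have a common odd corner. -/
theorem share (v : ℤ × ℤ) (e : ℤ × ℤ) (he : e = (1, 0) ∨ e = (-1, 0) ∨ e = (0, 1) ∨ e = (0, -1)) :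
    ∃ s : ℤ × ℤ, Odd (s.1 + s.2) ∧ Cor v s ∧ Cor (v.1 + e.1, v.2 + e.2) s := by
  obtain ⟨x, y⟩ := v
  rcases he with rfl | rfl | rfl | rfl
  · refine ⟨(x + 1, y + (x + y) % 2), ?_, ?_, ?_⟩
    · rw [Int.odd_iff]
      dsimp only
      omega
    · constructor <;> dsimp only <;> omega
    · constructor <;> dsimp only <;> omega
  · refine ⟨(x, y + (x + y + 1) % 2), ?_, ?_, ?_⟩
    · rw [Int.odd_iff]
      dsimp only
      omega
    · constructor <;> dsimp only <;> omega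
    · constructor <;> dsimp only <;> omega
  · refine ⟨(x + (x + y) % 2, y + 1), ?_, ?_, ?_⟩
    · rw [Int.odd_iff]
      dsimp only
      omega
    · constructor <;> dsimp only <;> omega
    · constructor <;> dsimp only <;> omega
  · refine ⟨(x + (x + y + 1) % 2, y), ?_, ?_, ?_⟩
    · rw [Int.odd_iff]
      dsimp only
      omega
    · constructor <;> dsimp only <;> omega
    · constructor <;> dsimp only <;> omega

theorem share_f (v e : ℤ × ℤ) (he : e = (1, 0) ∨ e = (-1, 0) ∨ e = (0, 1) ∨ e = (0, -1)) :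
    ∀ i : ℕ, ∃ s : ℤ × ℤ, Odd (s.1 + s.2) ∧ Cor ((v.1 + e.1 * (i : ℤ), v.2 + e.2 * (i : ℤ))) s ∧
      Cor ((v.1 + e.1 * ((i + 1 : ℕ) : ℤ), v.2 + e.2 * ((i + 1 : ℕ) : ℤ))) s := by
  intro i
  obtain ⟨s, h1, h2, h3⟩ := share (v.1 + e.1 * (i : ℤ), v.2 + e.2 * (i : ℤ)) e he
  refine ⟨s, h1, h2, ?_⟩
  have e1 : ((v.1 + e.1 * ((i + 1 : ℕ) : ℤ), v.2 + e.2 * ((i + 1 : ℕ) : ℤ)) : ℤ × ℤ) =
      (v.1 + e.1 * (i : ℤ) + e.1, v.2 + e.2 * (i : ℤ) + e.2) := by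
    push_cast
    ext <;> ring
  rw [e1]
  exact h3

/-- Joined along a row or a column. -/
theorem line {a b c d : ℤ} {v w : ℤ × ℤ} (hv : v ∈ Rsq a b c d) (hw : w ∈ Rsq a b c d)
    (hvw : v.1 = w.1 ∨ v.2 = w.2) : ∃ (e : ℤ × ℤ) (L : ℕ),
      (e = (1, 0) ∨ e = (-1, 0) ∨ e = (0, 1) ∨ e = (0, -1)) ∧
      w = (v.1 + e.1 * (L : ℤ), v.2 + e.2 * (L : ℤ)) ∧ ∀ j ≤ L,
        ((v.1 + e.1 * (j : ℤ), v.2 + e.2 * (j : ℤ)) : ℤ × ℤ) ∈ Rsq a b c d ∧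
        ((e.1 = 0 ∧ v.1 = w.1) ∨ (e.2 = 0 ∧ v.2 = w.2)) := by
  rw [mem_Rsq] at hv hw
  obtain ⟨x, y⟩ := v
  obtain ⟨x', y'⟩ := w
  simp only at hv hw hvw
  rcases hvw with h | h
  · rcases le_total y y' with h1 | h1
    · refine ⟨(0, 1), (y' - y).toNat, by tauto, ?_, fun j hj => ⟨?_, Or.inl ⟨rfl, h⟩⟩⟩
      · ext <;> simp <;> omega
      · rw [mem_Rsq]
        simp only
        omega
    · refine ⟨(0, -1), (y - y').toNat, by tauto, ?_, fun j hj => ⟨?_, Or.inl ⟨rfl, h⟩⟩⟩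
      · ext <;> simp <;> omega
      · rw [mem_Rsq]
        simp only
        omega
  · rcases le_total x x' with h1 | h1
    · refine ⟨(1, 0), (x' - x).toNat, by tauto, ?_, fun j hj => ⟨?_, Or.inr ⟨rfl, h⟩⟩⟩
      · ext <;> simp <;> omega
      · rw [mem_Rsq]
        simp only
        omega
    · refine ⟨(-1, 0), (x - x').toNat, by tauto, ?_, fun j hj => ⟨?_, Or.inr ⟨rfl, h⟩⟩⟩
      · ext <;> simp <;> omega
      · rw [mem_Rsq]
        simp only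
        omega

/-- A square of `F` with a square of the complement of `F` in its row or column. -/
theorem reach {a b c d : ℤ} {v w : ℤ × ℤ} (hv : v ∈ Rsq a b c d) (hw : w ∈ Rsq a b c d)
    (hvw : v.1 = w.1 ∨ v.2 = w.2) (hvF : v ∈ F) (hwF : w ∉ F) :
    ∃ z ∈ Rsq a b c d, z ∉ F ∧ ∃ z' ∈ Rsq a b c d, z' ∈ F ∧ ∃ u : ℤ × ℤ, Odd (u.1 + u.2) ∧
      Cor z u ∧ Cor z' u ∧ ∀ s : ℤ × ℤ, Cor v s → Odd (s.1 + s.2) →
        ReflTransGen (PStep {z | z ∈ F ∧ z ∈ Rsq a b c d}) s u := by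
  obtain ⟨e, L, he, h1, h2⟩ := line hv hw hvw
  obtain ⟨i, hi, h3, h4, u, hu, hu1, hu2, h5⟩ := hit (F := F)
    (f := fun i : ℕ => ((v.1 + e.1 * (i : ℤ), v.2 + e.2 * (i : ℤ)) : ℤ × ℤ)) (share_f v e he)
    (L := L) (by simpa using hvF) (by rw [← h1]; exact hwF)
  refine ⟨_, (h2 (i + 1) (by omega)).1, h4, _, (h2 i (by omega)).1, h3, u, hu, hu2, hu1,
    fun s hs hso => ?_⟩
  refine rtg_mono ?_ (h5 s (by simpa using hs) hso)
  rintro z ⟨hz, j, hj, rfl⟩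
  exact ⟨hz, (h2 j hj).1⟩

/-- Two squares of `F` whose rows and columns are in `F`. -/
theorem cross {a b c d : ℤ} {v w : ℤ × ℤ} (hv : v ∈ Rsq a b c d) (hw : w ∈ Rsq a b c d)
    (hvF : ∀ z ∈ Rsq a b c d, (v.1 = z.1 ∨ v.2 = z.2) → z ∈ F)
    (hwF : ∀ z ∈ Rsq a b c d, (w.1 = z.1 ∨ w.2 = z.2) → z ∈ F) {s t : ℤ × ℤ}
    (hs : Cor v s) (hso : Odd (s.1 + s.2)) (ht : Cor w t) (hto : Odd (t.1 + t.2)) :
    ReflTransGen (PStep {z | z ∈ F ∧ z ∈ Rsq a b c d}) s t := by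
  have hm : ((v.1, w.2) : ℤ × ℤ) ∈ Rsq a b c d := by
    rw [mem_Rsq] at hv hw ⊢
    simp only
    omega
  obtain ⟨u, hu, huo⟩ : ∃ u : ℤ × ℤ, Cor (v.1, w.2) u ∧ Odd (u.1 + u.2) := by
    obtain ⟨u, h1, h2, -⟩ := share (v.1, w.2) (1, 0) (by tauto)
    exact ⟨u, h2, h1⟩
  have key : ∀ v w : ℤ × ℤ, v ∈ Rsq a b c d → w ∈ Rsq a b c d →
      (∀ z ∈ Rsq a b c d, (v.1 = z.1 ∨ v.2 = z.2) → z ∈ F) → (v.1 = w.1 ∨ v.2 = w.2) →
      ∀ s t : ℤ × ℤ, Cor v s → Odd (s.1 + s.2) → Cor w t → Odd (t.1 + t.2) →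
      ReflTransGen (PStep {z | z ∈ F ∧ z ∈ Rsq a b c d}) s t := by
    clear hs hso ht hto hv hw hvF hwF hm hu huo
    intro v w hv hw hvF hvw s t hs hso ht hto
    obtain ⟨e, L, he, h1, h2⟩ := line hv hw hvw
    refine walk (f := fun i : ℕ => ((v.1 + e.1 * (i : ℤ), v.2 + e.2 * (i : ℤ)) : ℤ × ℤ))
      (share_f v e he) (L := L) (fun i hi => ?_) (by simpa using hs) hso (by rw [← h1]; exact ht)
      hto
    obtain ⟨h3, h4⟩ := h2 i hi
    refine ⟨hvF _ h3 ?_, h3⟩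
    rcases h4 with ⟨h4, -⟩ | ⟨h4, -⟩
    · left
      simp [h4]
    · right
      simp [h4]
  have h1 := key v (v.1, w.2) hv hm hvF (Or.inl rfl) s u hs hso hu huo
  have h2 := key w (v.1, w.2) hw hm hwF (Or.inr rfl) t u ht hto hu huo
  exact h1.trans (rtg_symm h2)

end Vale.Agent.P167.H108
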