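import Vale.Agent.P167.H108.Few1

/-!
# P167, `0 < q ≤ 1`: the frozen squares of a polygon belong to few clusters
-/

set_option autoImplicit false

namespace Vale.Agent.P167.H108

open Vale.Agent.P145.FB (PStep step_of_corners)
open Vale.Agent.P167.E6 Vale.Agent.P167.E2
open Vale.Agent.P167.FKA (Cor rtg_symm)
open Vale.Agent.P167.H166 (rtg_mono)
open Vale.Agent.P167.H262 (Rsq mem_Rsq)
open Vale.Agent.P167.H718 (Dq wE etaQ mem_Dq' mem_wE)
open Vale.Agent.P167.H161 (nm_sub_le nm_sub_lt face_key sq_near fin4_ofNat G_succ)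
open Vale.Agent.P167.QC (odd_corner exists_form fin4_back)
open Relation

variable {n : ℕ} {p : ZMod n → ℤ × ℤ} {S : Finset (ℤ × ℤ)} {k : ℕ} {a b c d : ℤ}

/-- The odd corners of an exterior square are exterior faces. -/
theorem ext_corner {v s : ℤ × ℤ} (h : H192.ed v ∉ edges S) (hc : Cor v s)
    (hs : Odd (s.1 + s.2)) : ∃ f, s = H192.rf f ∧ f ∉ S := by
  obtain ⟨u, r, hur⟩ := exists_form v
  have hvs : v = H192.sq s(u, u + dir (r + 1)) := by rw [← hur, H192.sq_ed]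
  rw [hur, mem_edges, fin4_back, not_or] at h
  rw [hvs] at hc
  rw [Int.odd_iff] at hs
  rcases odd_corner hc hs with h2 | h2
  · exact ⟨_, h2, h.2⟩
  · exact ⟨_, h2, h.1⟩

/-- An exterior face at a square of the domain is at a vertex of the polygon. -/
theorem ext_vertex (hp : IsPolygon p) (hS : Encloses p S) {v s : ℤ × ℤ}
    (hv : H192.ed v ∈ edges S) (hc : Cor v s) (hs : Odd (s.1 + s.2)) {f : ℤ × ℤ}
    (hf : s = H192.rf f) (hfS : f ∉ S) : ∃ i < n, ∃ d, face (p (i : ℕ)) d = f := by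
  obtain ⟨u, r, hur⟩ := exists_form v
  have hvs : v = H192.sq s(u, u + dir (r + 1)) := by rw [← hur, H192.sq_ed]
  rw [hur, mem_edges, fin4_back] at hv
  rw [hvs] at hc
  rw [Int.odd_iff] at hs
  have hfs : f = face u r ∨ f = face u (r + 1) := by
    rcases odd_corner hc hs with h | h
    · left
      rw [hf] at h
      exact H192.rf_inj h
    · right
      rw [hf] at h
      exact H192.rf_inj h
  have key : ∀ (u' : ℤ × ℤ) (d : Fin 4), face u' d ∈ S →
      face u' (d - 1) = f → ∃ i < n, ∃ d, face (p (i : ℕ)) d = f := by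
    intro u' d h1 h2
    obtain ⟨i, hi1, hi2⟩ := (hS u' d).2 ⟨h1, by rw [h2]; exact hfS⟩
    have hn : 2 < n := hp.1
    have _ : NeZero n := ⟨by omega⟩
    obtain ⟨j, hj, rfl⟩ : ∃ j : ℕ, j < n ∧ (j : ZMod n) = i :=
      ⟨i.val, ZMod.val_lt i, ZMod.natCast_zmod_val i⟩
    exact ⟨j, hj, d - 1, by rw [hi1, h2]⟩
  rcases hfs with h | h
  · rcases hv with h1 | h1
    · exact key u (r + 1) h1 (by rw [fin4_back, h])
    · exact absurd (h ▸ h1) hfS
  · rcases hv with h1 | h1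
    · exact absurd (h ▸ h1) hfS
    · refine key (u + dir (r + 1)) (r + 1 + 2) ?_ ?_
      · rw [face_right, fin4_back]
        exact h1
      · have e1 : r + 1 + 2 - 1 = r + 1 + 1 := by clear * -; revert r; decide
        rw [e1, face_left, h]

theorem rf_near (u : ℤ × ℤ) (e : Fin 4) :
    ((H192.rf (face u e)).1 = (H192.ro u).1 ∨ (H192.rf (face u e)).1 = (H192.ro u).1 + 1 ∨
      (H192.rf (face u e)).1 = (H192.ro u).1 - 1) ∧
    ((H192.rf (face u e)).2 = (H192.ro u).2 ∨ (H192.rf (face u e)).2 = (H192.ro u).2 + 1 ∨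
      (H192.rf (face u e)).2 = (H192.ro u).2 - 1) := by
  obtain ⟨a, b⟩ := u
  rcases H192.fin4_cases e with rfl | rfl | rfl | rfl <;>
    simp only [face, H192.rf, H192.ro] <;> refine ⟨?_, ?_⟩ <;> simp <;> omega

/-- The exterior squares of a rectangle. -/
def Exs (S : Finset (ℤ × ℤ)) (a b c d : ℤ) : Set (ℤ × ℤ) :=
  {z | H192.ed z ∉ edges S ∧ z ∈ Rsq a b c d}

/-- Well inside a rectangle. -/
def Nr (a b c d : ℤ) (u : ℤ × ℤ) : Prop :=
  a + 1 ≤ u.1 ∧ u.1 + 1 ≤ b ∧ c + 1 ≤ u.2 ∧ u.2 + 1 ≤ d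

theorem sq_mem {u : ℤ × ℤ} (hu : Nr a b c d (H192.ro u)) (r : Fin 4) :
    H192.sq s(u, u + dir r) ∈ Rsq a b c d := by
  obtain ⟨h1, h2⟩ := sq_near u r
  obtain ⟨h3, h4, h5, h6⟩ := hu
  rw [mem_Rsq]
  omega

section

variable (hp : IsPolygon p) (hS : Encloses p S)

/-- A step between two exterior faces at a vertex. -/
theorem fstep' {i : ZMod n} {r : Fin 4} (h1 : face (p i) r ∉ S) (h2 : face (p i) (r + 1) ∉ S)
    (hx : Nr a b c d (H192.ro (p i))) :
    PStep (Exs S a b c d) (H192.rf (face (p i) r)) (H192.rf (face (p i) (r + 1))) := by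
  obtain ⟨⟨h3, h4⟩, h5⟩ := face_key (p i) r
  refine ⟨h3, h4, ?_⟩
  rw [h5]
  refine ⟨?_, sq_mem hx _⟩
  rw [H192.ed_sq ⟨p i, r + 1, rfl⟩, mem_edges, fin4_back]
  tauto

include hp hS

theorem floc' {i : ZMod n} (hx : Nr a b c d (H192.ro (p i))) {r : Fin 4}
    (hr : face (p i) r ∉ S) : ReflTransGen (PStep (Exs S a b c d))
      (H192.rf (face (p i) (ri p i))) (H192.rf (face (p i) r)) := by
  have key : ∀ t : ℕ, t < (E2.ro p i - ri p i).val → ReflTransGen (PStep (Exs S a b c d))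
      (H192.rf (face (p i) (ri p i))) (H192.rf (face (p i) (ri p i + Fin.ofNat 4 t))) := by
    intro t
    induction t with
    | zero =>
      intro _
      have : ri p i + Fin.ofNat 4 0 = ri p i := by
        generalize ri p (i : ZMod n) = r
        revert r
        decide
      rw [this]
    | succ t ih =>
      intro ht
      obtain ⟨h1, h2⟩ := val_aux (E2.ro p i) (ri p i) t (by omega) ht
      refine (ih (by omega)).tail ?_
      have h3 : t < 4 := by omega
      have e1 : ri p i + Fin.ofNat 4 (t + 1) = ri p i + Fin.ofNat 4 t + 1 := by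
        clear h1 h2 ht ih
        generalize ri p (i : ZMod n) = r
        interval_cases t <;> revert r <;> decide
      rw [e1]
      exact fstep' ((ext_iff hp hS).2 h1) ((ext_iff hp hS).2 h2) hx
  have h1 := key _ ((ext_iff hp hS).1 hr)
  rwa [fin4_ofNat] at h1

theorem fchain' {i j : ℕ} (hij : i ≤ j)
    (hx : ∀ l : ℕ, i ≤ l → l ≤ j → Nr a b c d (H192.ro (p l))) :
    ReflTransGen (PStep (Exs S a b c d)) (H192.rf (face (p i) (ri p i)))
      (H192.rf (face (p j) (ri p j))) := by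
  induction j, hij using Nat.le_induction with
  | base => exact ReflTransGen.refl
  | succ j hij ih =>
    refine (ih fun l h1 h2 => hx l h1 (by omega)).trans ?_
    rw [G_succ hp]
    exact floc' hp hS (hx j hij (by omega)) (enc_out hp hS).2

omit hS in
theorem wstep' {i : ℕ} (hi : k ≤ i) (hi' : i + 1 < n) (hx : Nr a b c d (H192.ro (p i))) :
    PStep {z | z ∈ Rsq a b c d ∧ z ∉ Dq S p k ∧ etaQ p k z = true} (H192.ro (p i))
      (H192.ro (p ((i + 1 : ℕ) : ZMod n))) := by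
  obtain ⟨r, hr⟩ := hp.2.2 (i : ZMod n)
  have e1 : p ((i + 1 : ℕ) : ZMod n) = p i + dir r := by
    rw [← hr]
    push_cast
    rfl
  rw [e1]
  obtain ⟨h1, h2⟩ := H192.ro_dir (p i) r
  refine ⟨h1, h2, ?_⟩
  rw [← H192.sq_dir]
  have h3 : H192.ed (H192.sq s(p i, p i + dir r)) ∈ wE p k := by
    rw [H192.ed_sq ⟨p i, r, rfl⟩, mem_wE]
    exact ⟨i, hi, hi', by rw [← hr]⟩
  exact ⟨sq_mem hx r, fun h => (mem_Dq'.1 h).2 h3, H192.cfg_true.2 h3⟩

omit hS in
theorem wchain' {i j : ℕ} (hi : k ≤ i) (hij : i ≤ j) (hj : j < n)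
    (hx : ∀ l : ℕ, i ≤ l → l ≤ j → Nr a b c d (H192.ro (p l))) :
    ReflTransGen (PStep {z | z ∈ Rsq a b c d ∧ z ∉ Dq S p k ∧ etaQ p k z = true})
      (H192.ro (p i)) (H192.ro (p j)) := by
  induction j, hij using Nat.le_induction with
  | base => exact ReflTransGen.refl
  | succ j hij ih =>
    exact (ih (by omega) fun l h1 h2 => hx l h1 (by omega)).tail
      (wstep' hp (by omega) hj (hx j hij (by omega)))

/-- The edges of the wired arc are edges of the domain. -/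
theorem wE_edges {e : Sym2 (ℤ × ℤ)} (h : e ∈ wE p k) : e ∈ edges S := by
  obtain ⟨i, -, -, rfl⟩ := mem_wE.1 h
  obtain ⟨r, hr⟩ := hp.2.2 (i : ZMod n)
  rw [hr, mem_edges]
  exact Or.inl ((hS (p i) r).1 ⟨i, rfl, hr⟩).1

/-- The closed frozen squares are the exterior squares. -/
theorem frozen_false {v : ℤ × ℤ} : v ∉ Dq S p k ∧ etaQ p k v = false ↔ H192.ed v ∉ edges S := by
  have e : etaQ p k v = false ↔ H192.ed v ∉ wE p k := by
    have h1 : etaQ p k v = true ↔ H192.ed v ∈ wE p k := H192.cfg_true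
    rw [← h1, Bool.not_eq_true]
  rw [e, mem_Dq']
  constructor
  · rintro ⟨h1, h2⟩ h3
    exact h1 ⟨h3, h2⟩
  · intro h
    exact ⟨fun h1 => h h1.1, fun h1 => h (wE_edges hp hS h1)⟩

open Classical in
/-- **The frozen squares of a polygon belong to few clusters.** -/
theorem fewA_poly {c' : ℕ → ℕ} (hc : Monotone c') {M : ℕ}
    (hM : ∀ i < n, c' i < M) {ρ : ℤ} (hρ0 : 0 ≤ ρ) (hρ : ∀ i j, i < n → j < n → c' i = c' j →
      nm (H192.ro (p i) - H192.ro (p j)) ≤ ρ) (B : Finset (ℤ × ℤ)) :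
    FewA (M + 1) (ρ + 5) B (Dq S p k) (etaQ p k) := by
  intro a b c d _
  constructor
  · -- open
    let iW : ℕ → ℕ := fun u => sInf {i | k ≤ i ∧ i < n ∧ c' i = u}
    refine ⟨fun u => H192.ro (p (iW u)), fun u => H192.even_ro _, ?_⟩
    intro v hv hvD hvo u hue hvu
    have hv1 : H192.ed v ∈ wE p k := H192.cfg_true.1 hvo
    obtain ⟨i, hi1, hi2, hi3⟩ := mem_wE.1 hv1
    obtain ⟨r, hr⟩ := hp.2.2 (i : ZMod n)
    have e1 : p ((i + 1 : ℕ) : ZMod n) = p i + dir r := by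
      rw [← hr]
      push_cast
      rfl
    have hv2 : v = H192.sq s(p i, p i + dir r) := by rw [← hr, ← hi3, H192.sq_ed]
    obtain ⟨h3, h4⟩ := sq_near (p i) r
    rw [← hv2] at h3 h4
    rw [mem_Rsq] at hv
    have hmem : iW (c' i) ∈ {i' | k ≤ i' ∧ i' < n ∧ c' i' = c' i} :=
      Nat.sInf_mem (s := {i' | k ≤ i' ∧ i' < n ∧ c' i' = c' i}) ⟨i, hi1, by omega, rfl⟩
    have hle : iW (c' i) ≤ i :=
      Nat.sInf_le (s := {i' | k ≤ i' ∧ i' < n ∧ c' i' = c' i}) ⟨hi1, by omega, rfl⟩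
    obtain ⟨g1, g2, g3⟩ := hmem
    have hnear : ∀ l : ℕ, iW (c' i) ≤ l → l ≤ i → Nr a b c d (H192.ro (p l)) := by
      intro l hl1 hl2
      have h5 : c' l = c' i := le_antisymm (hc hl2) (by rw [← g3]; exact hc hl1)
      have h6 := hρ l i (by omega) (by omega) h5
      rw [nm_sub_le] at h6
      unfold Nr
      omega
    have hch := wchain' (S := S) hp g1 hle (by omega) hnear
    refine ⟨⟨c' i, by have := hM i (by omega); omega⟩, ?_⟩
    show ReflTransGen _ _ _
    -- the even corners of the square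
    obtain ⟨h5, h6⟩ := H192.ro_dir (p i) r
    have h7 : u = H192.ro (p i) ∨ u = H192.ro (p i + dir r) := by
      rw [hv2, H192.sq_dir] at hvu
      simp only [Cor] at hvu
      have h8 := H192.even_ro (p i)
      have h9 := H192.even_ro (p i + dir r)
      rw [Int.even_iff] at h8 h9 hue
      obtain ⟨u1, u2⟩ := u
      generalize H192.ro (p i) = x at *
      generalize H192.ro (p i + dir r) = y at *
      obtain ⟨x1, x2⟩ := x
      obtain ⟨y1, y2⟩ := y
      simp only [Prod.mk.injEq] at *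
      omega
    rcases h7 with h7 | h7
    · rw [h7]
      exact hch
    · rw [h7]
      have h8 := wstep' (S := S) (k := k) hp hi1 hi2 (hnear i hle le_rfl)
      rw [e1] at h8
      exact hch.tail h8
  · -- closed
    let iC : ℕ → ℕ := fun u => sInf {i | i < n ∧ c' i = u}
    set T := Rsq (a + (ρ + 5)) (b - (ρ + 5)) (c + (ρ + 5)) (d - (ρ + 5)) with hT
    have hTR : T ⊆ Rsq a b c d := by
      intro z hz
      rw [hT, mem_Rsq] at hz
      rw [mem_Rsq]
      omega
    set F : Set (ℤ × ℤ) := {z | H192.ed z ∉ edges S} with hF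
    -- the cross
    obtain ⟨x0, hx0, hx1⟩ : ∃ x0 : ℤ × ℤ, Odd (x0.1 + x0.2) ∧ ∀ v ∈ T,
        (∀ z ∈ T, (v.1 = z.1 ∨ v.2 = z.2) → z ∈ F) → ∀ s : ℤ × ℤ, Cor v s → Odd (s.1 + s.2) →
          ReflTransGen (PStep {z | z ∈ F ∧ z ∈ T}) x0 s := by
      by_cases h : ∃ v ∈ T, ∀ z ∈ T, (v.1 = z.1 ∨ v.2 = z.2) → z ∈ F
      · obtain ⟨v, hv, hvF⟩ := h
        obtain ⟨s, h1, h2, -⟩ := share v (1, 0) (by tauto)
        exact ⟨s, h1, fun w hw hwF t ht hto => cross hv hw hvF hwF h2 h1 ht hto⟩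
      · exact ⟨(1, 0), by decide, fun v hv hvF => absurd ⟨v, hv, hvF⟩ h⟩
    refine ⟨fun u => if (u : ℕ) < M then H192.rf (face (p (iC u)) (ri p (iC u))) else x0,
      fun u => ?_, ?_⟩
    · beta_reduce
      split_ifs
      · rw [← Int.not_even_iff_odd]
        exact H192.odd_rf _
      · exact hx0
    intro v hv hvD hvo s hso hvs
    have hvF : v ∈ F := (frozen_false hp hS).1 ⟨hvD, hvo⟩
    have hsub : Exs S a b c d ⊆ {z | z ∈ Rsq a b c d ∧ z ∉ Dq S p k ∧ etaQ p k z = false} := by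
      rintro z ⟨h1, h2⟩
      exact ⟨h2, (frozen_false hp hS).2 h1⟩
    have hsubT : {z | z ∈ F ∧ z ∈ T} ⊆ Exs S a b c d := fun z hz => ⟨hz.1, hTR hz.2⟩
    by_cases hcr : ∀ z ∈ T, (v.1 = z.1 ∨ v.2 = z.2) → z ∈ F
    · refine ⟨⟨M, by omega⟩, ?_⟩
      show ReflTransGen _ _ _
      dsimp only
      rw [if_neg (lt_irrefl M)]
      exact rtg_mono (hsubT.trans hsub) (hx1 v hv hcr s hvs hso)
    push Not at hcr
    obtain ⟨w, hw, hvw, hwF⟩ := hcr
    obtain ⟨z, hz, hzF, z', hz', hzF', u, hu, hu1, hu2, h1⟩ := reach hv hw hvw hvF hwF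
    obtain ⟨f, hf, hfS⟩ := ext_corner hzF' hu2 hu
    have hzE : H192.ed z ∈ edges S := by
      by_contra h
      exact hzF h
    obtain ⟨i, hi, e, he⟩ := ext_vertex hp hS hzE hu1 hu hf hfS
    have hmem : iC (c' i) ∈ {i' | i' < n ∧ c' i' = c' i} :=
      Nat.sInf_mem (s := {i' | i' < n ∧ c' i' = c' i}) ⟨i, hi, rfl⟩
    have hle : iC (c' i) ≤ i :=
      Nat.sInf_le (s := {i' | i' < n ∧ c' i' = c' i}) ⟨hi, rfl⟩
    obtain ⟨g1, g3⟩ := hmem
    have hnr : a + ρ + 4 ≤ (H192.ro (p i)).1 ∧ (H192.ro (p i)).1 + ρ + 4 ≤ b ∧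
        c + ρ + 4 ≤ (H192.ro (p i)).2 ∧ (H192.ro (p i)).2 + ρ + 4 ≤ d := by
      obtain ⟨h3, h4⟩ := rf_near (p i) e
      rw [he, ← hf] at h3 h4
      have hz := mem_Rsq.1 hz
      simp only [Cor] at hu1
      omega
    have hnear : ∀ l : ℕ, iC (c' i) ≤ l → l ≤ i → Nr a b c d (H192.ro (p l)) := by
      intro l hl1 hl2
      have h5 : c' l = c' i := le_antisymm (hc hl2) (by rw [← g3]; exact hc hl1)
      have h6 := hρ l i (by omega) (by omega) h5
      rw [nm_sub_le] at h6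
      unfold Nr
      omega
    have hch := fchain' hp hS hle hnear
    have h2 := floc' hp hS (hnear i hle le_rfl) (r := e) (by rw [he]; exact hfS)
    rw [he, ← hf] at h2
    have hMi := hM i hi
    refine ⟨⟨c' i, by omega⟩, ?_⟩
    show ReflTransGen _ _ _
    dsimp only
    rw [if_pos hMi]
    refine rtg_mono hsub ((hch.trans h2).trans ?_)
    exact rtg_mono hsubT (rtg_symm (h1 s hvs hso))

end

end Vale.Agent.P167.H108
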