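import Vale.Agent.P167.H722.Row4
import Vale.Agent.P167.H722.Ann

/-!
# P167, `0 < q ≤ 1`: number of the clusters which cross a rectangle, obstacles in a wider rectangle

The same as `H722.Row2` for a tube `[a', b'] × [c, d]` in the rectangle `[a, b] × [c, d]`: the clusters
cross the rectangle, and only the squares of the tube outside of `D` belong to the obstacles
(`InvT.out`).
-/

set_option autoImplicit false

namespace Vale.Agent.P167.H108

open Finset Vale.Agent.P167.FK Vale.Agent.P167.FKA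
open Vale.Agent.P145.FB (PStep PConn step_of_corners)
open Vale.Agent.P167.H166 (cl cl_eq cl_parity rtg_mono)
open Vale.Agent.P167.H262 (Rsq mem_Rsq Rsi rtg_rect CD rough_rect_dual mem_Db_rect)
open Vale.Agent.P167.H259 (f_markov)
open Vale.Agent.P167.H722
open Relation

variable {Q : ℝ} {a a' b' b c d : ℤ} {D D' : Finset (ℤ × ℤ)} {η ω : Cfg} {A₀ B₀ K : Set (ℤ × ℤ)}
  {F F' : Set (ℤ × ℤ)}

/-- `D` is the set of the free squares after the exploration of the clusters with union `K`. -/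
structure InvT (a a' b' b c d : ℤ) (A₀ B₀ : Set (ℤ × ℤ)) (D : Finset (ℤ × ℤ)) (K : Set (ℤ × ℤ)) :
    Prop where
  inv : Inv a b c d {v | v ∉ D} ∅ D K
  out : ∀ v ∈ Rsq a' b' c d, v ∉ D → v ∈ A₀ ∨ v ∈ B₀ ∨ ∃ u ∈ K, Cor v u

theorem InvT.step (h : InvT a a' b' b c d A₀ B₀ D K) {s : ℤ × ℤ} (hse : Even (s.1 + s.2))
    (hs1 : a ≤ s.1) (hs2 : s.1 ≤ b) (hs3 : c ≤ s.2) (hs4 : s.2 ≤ d) (hab : a < b) (hcd : c < d)
    (hmin : ∀ t : ℤ × ℤ, Even (t.1 + t.2) → a ≤ t.1 → t.1 ≤ b → c ≤ t.2 → t.2 < s.2 → t ∈ K) :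
    InvT a a' b' b c d A₀ B₀ (rest D (cl (Op D ω) s)) (K ∪ cl (Op D ω) s) := by
  have h1 := h.inv.step (ω := ω) hse hs1 hs2 hs3 hs4 hab hcd hmin
  have hDD : rest D (cl (Op D ω) s) ⊆ D := fun v hv => (mem_rest.1 hv).1
  refine ⟨⟨h1.sub, h1.ev, fun v _ hvD => Or.inl hvD, h1.far, h1.low⟩, fun v hv hvD => ?_⟩
  by_cases hvD' : v ∈ D
  · rw [mem_rest] at hvD
    push Not at hvD
    obtain ⟨u, hu, hc⟩ := hvD hvD'
    exact Or.inr (Or.inr ⟨u, Or.inr hu, hc⟩)
  · rcases h.out v hv hvD' with h1 | h1 | ⟨u, hu, hc⟩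
    · exact Or.inl h1
    · exact Or.inr (Or.inl h1)
    · exact Or.inr (Or.inr ⟨u, Or.inl hu, hc⟩)

theorem Rsq_subT (haa : a ≤ a') (hbb : b' ≤ b) : Rsq a' b' c d ⊆ Rsq a b c d := by
  intro v hv
  rw [mem_Rsq] at hv ⊢
  omega

/-- The probability of a further crossing cluster. -/
theorem ntT_pr (hQ : 0 < Q) (hQ1 : Q ≤ 1) (haa : a ≤ a') (hbb : b' ≤ b) (hab' : a' < b')
    (hcd : c < d) (hη : Good η) (h : InvT a a' b' b c d A₀ B₀ D K) {c₀ : ℝ}
    (hc₀ : c₀ ≤ Pr Q (Rsq a' b' c d) eta0 (CD (Rsq a' b' c d) (Bot c) (Top' d))) :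
    Pr Q D η {ω | 1 ≤ NT a b c d A₀ B₀ D ω} ≤ 1 - c₀ := by
  have hab : a < b := by omega
  have hsub : Rsq a' b' c d \ (Rsq a' b' c d \ D) ⊆ D := by
    intro v hv
    rw [Finset.mem_sdiff, Finset.mem_sdiff] at hv
    by_contra h'
    exact hv.2 ⟨hv.1, h'⟩
  have h1 := rough_rect_dual (Q := Q) (η := η) (D := D) (L := Rsq a' b' c d \ D) (a := a') (b := b')
    (c := c) (d := d) hQ hQ1 hη (A := Bot c) (B := Top' d) (A' := XX a b c d A₀ D)
    (B' := YY d B₀) (fun z hz => mem_Db_rect hz.1 (Or.inr (Or.inr (Or.inl hz.2))))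
    (fun z hz => mem_Db_rect hz.1 (Or.inr (Or.inr (Or.inr hz.2)))) bot_XX top_YY (by
      intro e he heS
      rw [Finset.mem_sdiff] at he
      obtain ⟨k1, k2⟩ := cor_da e
      obtain ⟨k3, k4⟩ := cor_db e
      rcases h.out e heS he.2 with h2 | h2 | h2
      · exact Or.inl ⟨⟨k2, Or.inr ⟨e, h2, k1⟩⟩, ⟨k4, Or.inr ⟨e, h2, k3⟩⟩⟩
      · exact Or.inr ⟨⟨k2, Or.inr ⟨e, h2, k1⟩⟩, ⟨k4, Or.inr ⟨e, h2, k3⟩⟩⟩
      · have heS' := Rsq_subT haa hbb heS
        exact Or.inl ⟨⟨k2, Or.inl (h.inv.low e heS' h2 _ k1 k2)⟩,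
          ⟨k4, Or.inl (h.inv.low e heS' h2 _ k3 k4)⟩⟩) hsub
  have h2 : Pr Q D η {ω | 1 ≤ NT a b c d A₀ B₀ D ω} ≤
      Pr Q D η (CD (Rsq a' b' c d \ (Rsq a' b' c d \ D)) (XX a b c d A₀ D) (YY d B₀))ᶜ := by
    refine Pr_mono hQ fun ω hω h' => ?_
    have h'' : ω ∈ CD D (XX a b c d A₀ D) (YY d B₀) := by
      obtain ⟨u, hu, v, hv, h3⟩ := h'
      exact ⟨u, hu, v, hv, rtg_imp (fun x y hxy =>
        ⟨hxy.1, hxy.2.1, hxy.2.2.1, hsub hxy.2.2.2⟩) h3⟩
    have h3 := nt_zero hab hcd h.inv.sub h''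
    have h4 : 1 ≤ NT a b c d A₀ B₀ D ω := hω
    omega
  rw [Pr_compl hQ] at h2
  linarith

/-- **Exponential moment of the number of the crossing clusters of one type.** -/
theorem ntT_exp (hQ : 0 < Q) (hQ1 : Q ≤ 1) (haa : a ≤ a') (hbb : b' ≤ b) (hab' : a' < b')
    (hcd : c < d) {c₀ y β : ℝ}
    (hc₀ : c₀ ≤ Pr Q (Rsq a' b' c d) eta0 (CD (Rsq a' b' c d) (Bot c) (Top' d)))
    (hy : 1 ≤ y) (hya : y * (1 - c₀) < 1) (hβ : β * (1 - y * (1 - c₀)) = y - 1) :
    ∀ (n : ℕ) (D : Finset (ℤ × ℤ)) (K : Set (ℤ × ℤ)) (η : Cfg), left' a b c d K ≤ n →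
      InvT a a' b' b c d A₀ B₀ D K → Good η → Ex Q D η (fun ω => y ^ NT a b c d A₀ B₀ D ω) ≤
        1 + β * Pr Q D η {ω | 1 ≤ NT a b c d A₀ B₀ D ω} := by
  classical
  have hab : a < b := by omega
  have hβ0 : 0 ≤ β := by
    by_contra h
    push Not at h
    nlinarith
  -- no site is left
  have hzero : ∀ (D : Finset (ℤ × ℤ)) (K : Set (ℤ × ℤ)) (η : Cfg),
      (∀ s : ℤ × ℤ, Even (s.1 + s.2) → s ∈ Rsi a b c d → s ∈ K) →
      InvT a a' b' b c d A₀ B₀ D K → Ex Q D η (fun ω => y ^ NT a b c d A₀ B₀ D ω) ≤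
        1 + β * Pr Q D η {ω | 1 ≤ NT a b c d A₀ B₀ D ω} := by
    intro D K η hall hI
    have hD : D = ∅ := by
      rw [Finset.eq_empty_iff_forall_notMem]
      intro v hv
      obtain ⟨h1, h2⟩ := cor_pa v
      have h3 := mem_Rsq.1 (hI.inv.sub hv)
      refine hI.inv.far v hv (pa v) (hall _ h2 ?_) h1
      simp only [Cor] at h1
      show a ≤ (pa v).1 ∧ (pa v).1 ≤ b ∧ c ≤ (pa v).2 ∧ (pa v).2 ≤ d
      omega
    subst hD
    have h0 : ∀ ω, NT a b c d A₀ B₀ ∅ ω = 0 := by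
      intro ω
      unfold NT
      rw [Set.ncard_eq_zero (crt_fin hab ∅ ω), Set.eq_empty_iff_forall_notMem]
      rintro C ⟨⟨u, hue, hua, rfl, t, ht, htb⟩, -⟩
      have ht' : ReflTransGen (PStep (Op ∅ ω)) u t := ht
      rcases ReflTransGen.cases_head ht' with h4 | ⟨w, h4, -⟩
      · rw [← h4] at htb
        omega
      · exact absurd h4.2.2.1 (Finset.notMem_empty _)
    have h1 := mul_nonneg hβ0 (Pr_nonneg (D := ∅) (η := η) hQ {ω | 1 ≤ NT a b c d A₀ B₀ ∅ ω})
    simp only [h0, pow_zero] at *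
    rw [Ex_const hQ]
    linarith
  intro n
  induction n with
  | zero =>
    intro D K η hn hI _
    refine hzero D K η (fun s hs1 hs2 => ?_) hI
    by_contra hcon
    have h1 : {s : ℤ × ℤ | Even (s.1 + s.2) ∧ s ∈ Rsi a b c d ∧ s ∉ K} = ∅ :=
      (Set.ncard_eq_zero (left_fin K)).1 (Nat.le_zero.1 hn)
    exact (Set.eq_empty_iff_forall_notMem.1 h1 s) ⟨hs1, hs2, hcon⟩
  | succ n ih =>
    intro D K η hn hI hη
    by_cases hall : ∀ s : ℤ × ℤ, Even (s.1 + s.2) → s ∈ Rsi a b c d → s ∈ K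
    · exact hzero D K η hall hI
    · push Not at hall
      -- the lowest site
      obtain ⟨s, ⟨hse, hsR, hsK⟩, hmin⟩ : ∃ s ∈ {s : ℤ × ℤ | Even (s.1 + s.2) ∧
          s ∈ Rsi a b c d ∧ s ∉ K}, ∀ t ∈ {s : ℤ × ℤ | Even (s.1 + s.2) ∧ s ∈ Rsi a b c d ∧
          s ∉ K}, s.2 ≤ t.2 := by
        obtain ⟨s, h1, h2, h3⟩ := hall
        exact Set.exists_min_image _ (fun s : ℤ × ℤ => s.2) (left_fin K) ⟨s, h1, h2, h3⟩
      have hsR' : a ≤ s.1 ∧ s.1 ≤ b ∧ c ≤ s.2 ∧ s.2 ≤ d := hsR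
      have hmin' : ∀ t : ℤ × ℤ, Even (t.1 + t.2) → a ≤ t.1 → t.1 ≤ b → c ≤ t.2 → t.2 < s.2 →
          t ∈ K := by
        intro t h1 h2 h3 h4 h5
        by_contra hcon
        have := hmin t ⟨h1, ⟨h2, h3, h4, by omega⟩, hcon⟩
        omega
      set k : Cfg → Set (ℤ × ℤ) := fun ω => cl (Op D ω) s with hk
      have e1 : (1 : ℝ) = Ex Q D η (fun _ => 1) := (Ex_const hQ 1).symm
      rw [e1]
      unfold Pr
      rw [Ex_split (α := Set (ℤ × ℤ)) k (fun ω => y ^ NT a b c d A₀ B₀ D ω),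
        Ex_split (α := Set (ℤ × ℤ)) k (fun _ => (1 : ℝ)),
        Ex_split (α := Set (ℤ × ℤ)) k ({ω | 1 ≤ NT a b c d A₀ B₀ D ω}.indicator 1),
        Finset.mul_sum, ← Finset.sum_add_distrib]
      refine Finset.sum_le_sum fun L hL => ?_
      rw [Finset.mem_image] at hL
      obtain ⟨S0, hS0, hKS⟩ := hL
      have hsL : s ∈ L := by rw [← hKS]; exact ReflTransGen.refl
      set D' := rest D L with hD'
      have hsub : D' ⊆ D := fun v hv => (mem_rest.1 hv).1
      have hleft : left' a b c d (K ∪ L) ≤ n := by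
        have h1 : left' a b c d (K ∪ L) < left' a b c d K := by
          refine Set.ncard_lt_ncard ⟨fun t ht => ⟨ht.1, ht.2.1, fun h => ht.2.2 (Or.inl h)⟩,
            fun h => ?_⟩ (left_fin K)
          exact (h (show s ∈ _ from ⟨hse, hsR, hsK⟩)).2.2 (Or.inr hsL)
        omega
      -- the type of the explored cluster
      set T : Cfg → Prop := fun ω => L ∈ CrT a b c d A₀ B₀ D ω with hTdef
      set I : Cfg → ℝ := {ω | k ω = L}.indicator 1 with hI'
      have hI0 : ∀ ω, 0 ≤ I ω := ind_nonneg _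
      have hIz : ∀ ω, k ω ≠ L → I ω = 0 := fun ω h =>
        Set.indicator_of_notMem (show ω ∉ {ω | k ω = L} from h) _
      have hInt : ∀ ω, k ω = L → NT a b c d A₀ B₀ D ω = NT a b c d A₀ B₀ D' ω +
          if T ω then 1 else 0 := by
        intro ω hω
        have h1 := nt_rest (A₀ := A₀) (B₀ := B₀) (c := c) (d := d) hab (D := D) (ω := ω) hse
        have h2 : cl (Op D ω) s = L := hω
        rw [h2] at h1
        exact h1
      set G1 : Cfg → ℝ := fun ω => I ω * {ω | T ω}.indicator (fun _ => y) ω with hG1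
      set G2 : Cfg → ℝ := fun ω => I ω * {ω | T ω}.indicator (fun _ => 1) ω with hG2
      have hInd1 : Ind D' G1 := ind_crt L
      have hInd2 : Ind D' G2 := ind_crt L
      have hInd : Ind D' I := ind_cl L
      have hInd3 : Ind D' (fun ω => I ω - G2 ω) := fun ω ω' h => by
        show I ω - G2 ω = I ω' - G2 ω'
        rw [hInd ω ω' h, hInd2 ω ω' h]
      -- the two sides
      have h1 : Ex Q D η (fun ω => I ω * y ^ NT a b c d A₀ B₀ D ω) =
          Ex Q D η (fun ω => (G1 ω + (I ω - G2 ω)) * y ^ NT a b c d A₀ B₀ D' ω) := by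
        refine Ex_congr fun S _ => ?_
        by_cases h : k (cf D η S) = L
        · rw [hInt _ h]
          simp only [hG1, hG2]
          by_cases hT : T (cf D η S)
          · rw [if_pos hT, Set.indicator_of_mem (show cf D η S ∈ {ω | T ω} from hT),
              Set.indicator_of_mem (show cf D η S ∈ {ω | T ω} from hT), pow_succ]
            ring
          · rw [if_neg hT, Set.indicator_of_notMem (show cf D η S ∉ {ω | T ω} from hT),
              Set.indicator_of_notMem (show cf D η S ∉ {ω | T ω} from hT), add_zero]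
            ring
        · simp only [hG1, hG2, hIz _ h, zero_mul, sub_zero, add_zero]
      have h2 : Ex Q D η (fun ω => I ω * {ω | 1 ≤ NT a b c d A₀ B₀ D ω}.indicator 1 ω) =
          Ex Q D η G2 + Ex Q D η (fun ω => (I ω - G2 ω) *
            {ω | 1 ≤ NT a b c d A₀ B₀ D' ω}.indicator 1 ω) := by
        rw [← Ex_add]
        refine Ex_congr fun S _ => ?_
        by_cases h : k (cf D η S) = L
        · have h3 := hInt _ h
          simp only [hG2]
          by_cases hT : T (cf D η S)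
          · rw [if_pos hT] at h3
            rw [Set.indicator_of_mem (show cf D η S ∈ {ω | T ω} from hT),
              Set.indicator_of_mem (show cf D η S ∈ {ω | 1 ≤ NT a b c d A₀ B₀ D ω} by
                show 1 ≤ NT a b c d A₀ B₀ D (cf D η S); omega)]
            simp
          · rw [if_neg hT, add_zero] at h3
            rw [Set.indicator_of_notMem (show cf D η S ∉ {ω | T ω} from hT)]
            have e : {ω | 1 ≤ NT a b c d A₀ B₀ D ω}.indicator (1 : Cfg → ℝ) (cf D η S) =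
                {ω | 1 ≤ NT a b c d A₀ B₀ D' ω}.indicator 1 (cf D η S) := by
              by_cases h7 : 1 ≤ NT a b c d A₀ B₀ D' (cf D η S)
              · rw [Set.indicator_of_mem (show cf D η S ∈ {ω | 1 ≤ NT a b c d A₀ B₀ D' ω} from h7),
                  Set.indicator_of_mem (show cf D η S ∈ {ω | 1 ≤ NT a b c d A₀ B₀ D ω} by
                    show 1 ≤ NT a b c d A₀ B₀ D (cf D η S); omega)]
              · rw [Set.indicator_of_notMem (show cf D η S ∉ {ω | 1 ≤ NT a b c d A₀ B₀ D' ω}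
                    from h7),
                  Set.indicator_of_notMem (show cf D η S ∉ {ω | 1 ≤ NT a b c d A₀ B₀ D ω} by
                    show ¬ 1 ≤ NT a b c d A₀ B₀ D (cf D η S); omega)]
            rw [e]
            ring
        · simp only [hG2, hIz _ h, zero_mul, sub_zero, add_zero]
      have h3 := markov f_markov hQ hsub hη (F := fun ω => y ^ NT a b c d A₀ B₀ D' ω)
        (G := fun ω => G1 ω + (I ω - G2 ω)) (fun ω ω' h => by
          show G1 ω + (I ω - G2 ω) = G1 ω' + (I ω' - G2 ω')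
          rw [hInd1 ω ω' h, hInd ω ω' h, hInd2 ω ω' h])
      have h4 := markov f_markov hQ hsub hη
        (F := {ω | 1 ≤ NT a b c d A₀ B₀ D' ω}.indicator 1) hInd3
      rw [h1, h2, h3, h4]
      have h5 : ∀ f g h k : Cfg → ℝ, (∀ S ⊆ D, f (cf D η S) ≤ g (cf D η S) +
          β * (h (cf D η S) + k (cf D η S))) →
          Ex Q D η f ≤ Ex Q D η g + β * (Ex Q D η h + Ex Q D η k) := by
        intro f g h k hfg
        rw [← Ex_add, ← Ex_mul_left, ← Ex_add]
        exact Ex_mono hQ hfg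
      refine h5 _ _ _ _ fun S hS => ?_
      by_cases h : k (cf D η S) = L
      · have hgood := f_good.1 D η S hη
        have hI2 : InvT a a' b' b c d A₀ B₀ D' (K ∪ L) := by
          have h6 := hI.step (ω := cf D η S) hse hsR'.1 hsR'.2.1 hsR'.2.2.1 hsR'.2.2.2 hab hcd
            hmin'
          have h7 : cl (Op D (cf D η S)) s = L := h
          rw [h7] at h6
          exact h6
        have h6 := ih D' (K ∪ L) (cf D η S) hleft hI2 hgood
        have h7 := ntT_pr hQ hQ1 haa hbb hab' hcd hgood hI2 hc₀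
        have h8 : I (cf D η S) = 1 := by
          rw [hI', Set.indicator_of_mem (show cf D η S ∈ {ω | k ω = L} from h)]
          rfl
        simp only [hG1, hG2, h8, one_mul, mul_one]
        have hP : Ex Q D' (cf D η S) ({ω | 1 ≤ NT a b c d A₀ B₀ D' ω}.indicator 1) =
            Pr Q D' (cf D η S) {ω | 1 ≤ NT a b c d A₀ B₀ D' ω} := rfl
        rw [hP]
        by_cases hT : T (cf D η S)
        · rw [Set.indicator_of_mem (show cf D η S ∈ {ω | T ω} from hT),
            Set.indicator_of_mem (show cf D η S ∈ {ω | T ω} from hT)]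
          have h9 := mul_le_mul_of_nonneg_left h6 (show 0 ≤ y by linarith)
          have h10 := mul_le_mul_of_nonneg_left h7 (mul_nonneg (show 0 ≤ y by linarith) hβ0)
          nlinarith
        · rw [Set.indicator_of_notMem (show cf D η S ∉ {ω | T ω} from hT),
            Set.indicator_of_notMem (show cf D η S ∉ {ω | T ω} from hT)]
          linarith
      · simp only [hG1, hG2, hIz _ h, zero_mul, sub_zero, add_zero, mul_zero]
        exact le_refl _

end Vale.Agent.P167.H108
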