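import Vale.Agent.P167.H108.RowT

/-!
# P167, `0 < q ≤ 1`: number of the clusters which cross a rectangle, obstacles in a wider rectangle, all
types

The same as `H722.Row3` for a tube `[a', b'] × [c, d]` in the rectangle `[a, b] × [c, d]`: the obstacles
are connected in the rectangle and cover the squares of the tube outside of `D`.
-/

set_option autoImplicit false

namespace Vale.Agent.P167.H108

open Finset Vale.Agent.P167.FK Vale.Agent.P167.FKA
open Vale.Agent.P145.FB (PStep PConn step_of_corners)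
open Vale.Agent.P167.H166 (cl cl_eq cl_parity rtg_mono)
open Vale.Agent.P167.H262 (Rsq mem_Rsq Rsi rtg_rect CD rough_rect_dual mem_Db_rect)
open Vale.Agent.P167.H259 (f_markov)
open Vale.Agent.P167.H722
open Relation

variable {Q : ℝ} {a a' b' b c d : ℤ} {D D' : Finset (ℤ × ℤ)} {η ω : Cfg} {m : ℕ}
  {Λ : Fin m → Set (ℤ × ℤ)}

/-- The obstacles. -/
structure ObsT (a a' b' b c d : ℤ) (D : Finset (ℤ × ℤ)) (Λ : Fin m → Set (ℤ × ℤ)) : Prop where
  sub : D ⊆ Rsq a b c d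
  cover : ∀ v ∈ Rsq a' b' c d, v ∉ D → ∃ i, v ∈ Λ i
  out : ∀ i, ∀ v ∈ Λ i, v ∈ Rsq a b c d ∧ v ∉ D
  conn : ∀ i, OConn (Λ i)

theorem ObsT.inv (h : ObsT a a' b' b c d D Λ) (I : Finset (Fin m)) :
    InvT a a' b' b c d (LI Λ I) (LI Λ Iᶜ) D ∅ where
  inv :=
    { sub := h.sub
      ev := fun _ h => absurd h (Set.notMem_empty _)
      out := fun v _ hvD => Or.inl hvD
      far := fun _ _ _ h => absurd h (Set.notMem_empty _)
      low := fun _ _ ⟨_, h, _⟩ => absurd h (Set.notMem_empty _) }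
  out := fun v hv hvD => by
    obtain ⟨i, hi⟩ := h.cover v hv hvD
    by_cases hI : i ∈ I
    · exact Or.inl ⟨i, hI, hi⟩
    · exact Or.inr (Or.inl ⟨i, Finset.mem_compl.2 hI, hi⟩)

open Classical in
/-- Every crossing cluster has a type. -/
theorem ObsT.type (h : ObsT a a' b' b c d D Λ) {C : Set (ℤ × ℤ)} (hC : C ∈ CrC a b (Op D ω)) :
    ∃ I : Finset (Fin m), C ∈ CrT a b c d (LI Λ I) (LI Λ Iᶜ) D ω := by
  set R : Set (ℤ × ℤ) := RL c (↑(Rsq a b c d) \ OpT D ω C) with hR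
  refine ⟨Finset.univ.filter fun i => ∃ v ∈ Λ i, ∃ z, Cor v z ∧ Odd (z.1 + z.2) ∧ z ∈ R, hC,
    ?_, ?_⟩
  · rintro w ⟨i, hi, hw⟩ z' hz' hzo'
    obtain ⟨v, hv, z, hz, hzo, hzR⟩ := (Finset.mem_filter.1 hi).2
    refine RL_rtg hzR (rtg_mono ?_ (h.conn i v hv w hw z z' hz hz' hzo hzo'))
    intro x hx
    obtain ⟨h1, h2⟩ := h.out i x hx
    exact ⟨h1, fun h' => h2 h'.1⟩
  · rintro w ⟨i, hi, hw⟩ z' hz' hzo' hcon
    rw [Finset.mem_compl, Finset.mem_filter] at hi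
    exact hi ⟨Finset.mem_univ _, w, hw, z', hz', hzo', hcon⟩

theorem ObsT.card_le (h : ObsT a a' b' b c d D Λ) (hab : a < b) :
    (CrC a b (Op D ω)).ncard ≤ ∑ I : Finset (Fin m), NT a b c d (LI Λ I) (LI Λ Iᶜ) D ω := by
  classical
  have h1 : CrC a b (Op D ω) ⊆ ⋃ I : Finset (Fin m), CrT a b c d (LI Λ I) (LI Λ Iᶜ) D ω := by
    intro C hC
    obtain ⟨I, hI⟩ := h.type hC
    exact Set.mem_iUnion.2 ⟨I, hI⟩
  have h2 : (⋃ I : Finset (Fin m), CrT a b c d (LI Λ I) (LI Λ Iᶜ) D ω).ncard ≤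
      ∑ I : Finset (Fin m), NT a b c d (LI Λ I) (LI Λ Iᶜ) D ω := by
    unfold NT
    have key : ∀ s : Finset (Finset (Fin m)),
        (⋃ I ∈ s, CrT a b c d (LI Λ I) (LI Λ Iᶜ) D ω).ncard ≤
          ∑ I ∈ s, (CrT a b c d (LI Λ I) (LI Λ Iᶜ) D ω).ncard := by
      intro s
      induction s using Finset.induction_on with
      | empty => simp
      | insert I s hI ih =>
        rw [Finset.sum_insert hI, Finset.set_biUnion_insert]
        exact (Set.ncard_union_le _ _).trans (Nat.add_le_add_left ih _)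
    have h3 := key Finset.univ
    simpa using h3
  refine (Set.ncard_le_ncard h1 ?_).trans h2
  exact Set.finite_iUnion fun I => crt_fin hab D ω

/-- **Exponential moment of the number of the crossing clusters.** -/
theorem nsT_exp (m : ℕ) {c₀ : ℝ} (hc : 0 < c₀) : ∃ l C : ℝ, 0 < l ∧ 0 < C ∧ ∀ (Q : ℝ), 0 < Q →
    Q ≤ 1 → ∀ (a a' b' b c d : ℤ), a ≤ a' → a' < b' → b' ≤ b → c < d →
    c₀ ≤ Pr Q (Rsq a' b' c d) eta0 (CD (Rsq a' b' c d) (Bot c) (Top' d)) →
    ∀ (D : Finset (ℤ × ℤ)) (Λ : Fin m → Set (ℤ × ℤ)) (η : Cfg), ObsT a a' b' b c d D Λ → Good η →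
      Ex Q D η (fun ω => Real.exp (l * ((CrC a b (Op D ω)).ncard : ℝ))) ≤ C := by
  classical
  -- constants
  set c₁ : ℝ := min c₀ (1 / 2) with hc₁
  have hc1 : 0 < c₁ := lt_min hc (by norm_num)
  have hc2 : c₁ ≤ 1 / 2 := min_le_right _ _
  set y : ℝ := 1 / (1 - c₁ / 2) with hy
  have h1 : 0 < 1 - c₁ / 2 := by linarith
  have hy1 : 1 < y := by rw [hy, lt_div_iff₀ h1]; linarith
  have hya : y * (1 - c₁) < 1 := by
    rw [hy, one_div_mul_eq_div, div_lt_one h1]; linarith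
  set β : ℝ := (y - 1) / (1 - y * (1 - c₁)) with hβ
  have hβ' : β * (1 - y * (1 - c₁)) = y - 1 := by
    rw [hβ, div_mul_cancel₀]
    linarith
  have hβ0 : 0 ≤ β := div_nonneg (by linarith) (by linarith)
  set M : ℕ := (Finset.univ : Finset (Finset (Fin m))).card with hM
  have hM0 : (0 : ℝ) < M := by
    have : 0 < M := Finset.card_pos.2 ⟨∅, Finset.mem_univ _⟩
    exact_mod_cast this
  have hly : 0 < Real.log y := Real.log_pos hy1
  refine ⟨Real.log y / M, 1 + β, by positivity, by linarith,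
    fun Q hQ hQ1 a a' b' b c d haa hab' hbb hcd hc₀ D Λ η hO hη => ?_⟩
  have hab : a < b := by omega
  have hc₀' : c₁ ≤ Pr Q (Rsq a' b' c d) eta0 (CD (Rsq a' b' c d) (Bot c) (Top' d)) :=
    (min_le_left _ _).trans hc₀
  have h2 : ∀ I : Finset (Fin m), Ex Q D η (fun ω => y ^ NT a b c d (LI Λ I) (LI Λ Iᶜ) D ω) ≤
      1 + β := by
    intro I
    have h3 := ntT_exp hQ hQ1 haa hbb hab' hcd hc₀' hy1.le hya hβ' _ D ∅ η le_rfl (hO.inv I) hη
    have h4 := mul_le_mul_of_nonneg_left (Pr_le_one (D := D) (η := η) hQ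
      {ω | 1 ≤ NT a b c d (LI Λ I) (LI Λ Iᶜ) D ω}) hβ0
    linarith
  have h3 : Ex Q D η (fun ω => Real.exp (Real.log y / M * ((CrC a b (Op D ω)).ncard : ℝ))) ≤
      Ex Q D η (fun ω => (1 / (M : ℝ)) * ∑ I : Finset (Fin m),
        y ^ NT a b c d (LI Λ I) (LI Λ Iᶜ) D ω) := by
    refine Ex_mono hQ fun S _ => ?_
    have h4 := hO.card_le (ω := cf D η S) hab
    have h5 : Real.exp (Real.log y / M * ((CrC a b (Op D (cf D η S))).ncard : ℝ)) ≤
        Real.exp (Real.log y / M * ((∑ I : Finset (Fin m),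
          NT a b c d (LI Λ I) (LI Λ Iᶜ) D (cf D η S) : ℕ) : ℝ)) := by
      refine Real.exp_le_exp.2 (mul_le_mul_of_nonneg_left ?_ (by positivity))
      exact_mod_cast h4
    refine h5.trans ((exp_sum_le Finset.univ ⟨∅, Finset.mem_univ _⟩ _ _).trans (le_of_eq ?_))
    congr 1
    refine Finset.sum_congr rfl fun I _ => ?_
    rw [← hM, div_mul_cancel₀ _ hM0.ne', ← Real.rpow_natCast, Real.rpow_def_of_pos (by linarith)]
  refine h3.trans ?_
  rw [Ex_mul_left, Ex_sum]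
  have h4 : ∑ I : Finset (Fin m), Ex Q D η (fun ω => y ^ NT a b c d (LI Λ I) (LI Λ Iᶜ) D ω) ≤
      ∑ _I : Finset (Fin m), (1 + β) := Finset.sum_le_sum fun I _ => h2 I
  rw [Finset.sum_const, nsmul_eq_mul, ← hM] at h4
  calc 1 / (M : ℝ) * ∑ I : Finset (Fin m), Ex Q D η
        (fun ω => y ^ NT a b c d (LI Λ I) (LI Λ Iᶜ) D ω) ≤ 1 / (M : ℝ) * (M * (1 + β)) :=
        mul_le_mul_of_nonneg_left h4 (by positivity)
    _ = 1 + β := by field_simp

end Vale.Agent.P167.H108
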