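import Vale.Agent.P167.H108.RowU

/-!
# P167, `0 < q ≤ 1`: number of the clusters which cross a rectangle, frozen squares in a wider rectangle

`frT_exp`: the version of `H722.fr_exp` for the free squares `E` in `[a, b] × [c', d']`: the frozen
squares of the smaller rectangle `[a', b'] × [c', d']` belong to at most `m` clusters of each colour of
the frozen squares of the larger rectangle `[a, b] × [c, d]`.
-/

set_option autoImplicit false

namespace Vale.Agent.P167.H108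

open Finset Vale.Agent.P167.FK Vale.Agent.P167.FKA
open Vale.Agent.P145.FB (PStep PConn step_of_corners)
open Vale.Agent.P167.H166 (cl cl_eq cl_parity rtg_mono)
open Vale.Agent.P167.H262 (Rsq mem_Rsq Rsi rtg_rect CD rough_rect_dual mem_Db_rect)
open Vale.Agent.P167.H259 (f_markov)
open Vale.Agent.P167.H562.QM (cl_symm exists_even)
open Vale.Agent.P167.H816 (dV)
open Vale.Agent.P167.H722
open Relation

variable {Q : ℝ} {a a' b' b c c' d' d : ℤ} {D E : Finset (ℤ × ℤ)} {η ω : Cfg} {m : ℕ}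

/-! ### rectangles are connected -/

/-- A step in a rectangle. -/
theorem rect_step {F : Set (ℤ × ℤ)} (hF : ∀ v ∈ Rsq a b c d, v ∈ F) {u v : ℤ × ℤ}
    (hu : a ≤ u.1 ∧ u.1 ≤ b ∧ c ≤ u.2 ∧ u.2 ≤ d) (hv : a ≤ v.1 ∧ v.1 ≤ b ∧ c ≤ v.2 ∧ v.2 ≤ d)
    (h1 : v.1 = u.1 + 1 ∨ v.1 = u.1 - 1) (h2 : v.2 = u.2 + 1 ∨ v.2 = u.2 - 1) : PStep F u v := by
  refine ⟨h1, h2, hF _ ?_⟩
  rw [mem_Rsq]
  simp only
  omega

theorem rect_step' {F : Set (ℤ × ℤ)} (hF : ∀ v ∈ Rsq a b c d, v ∈ F) {x y x' y' : ℤ}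
    (hu : a ≤ x ∧ x ≤ b ∧ c ≤ y ∧ y ≤ d) (hv : a ≤ x' ∧ x' ≤ b ∧ c ≤ y' ∧ y' ≤ d)
    (h1 : x' = x + 1 ∨ x' = x - 1) (h2 : y' = y + 1 ∨ y' = y - 1) : PStep F (x, y) (x', y') :=
  rect_step hF hu hv h1 h2

theorem rect_col {F : Set (ℤ × ℤ)} (hF : ∀ v ∈ Rsq a b c d, v ∈ F) (hab : a < b) :
    ∀ (n : ℕ) (y : ℤ), c ≤ y → y + 2 * n ≤ d → ReflTransGen (PStep F) (a, y) (a, y + 2 * n) := by
  intro n
  induction n with
  | zero =>
    intro y _ _
    simp only [Nat.cast_zero, mul_zero, add_zero]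
    exact ReflTransGen.refl
  | succ n ih =>
    intro y hy hd
    push_cast at hd ⊢
    have h1 := ih y hy (by omega)
    have h2 : PStep F (a, y + 2 * n) (a + 1, y + 2 * n + 1) :=
      rect_step' hF (by omega) (by omega) (by omega) (by omega)
    have h3 : PStep F (a + 1, y + 2 * n + 1) (a, y + 2 * (n + 1)) :=
      rect_step' hF (by omega) (by omega) (by omega) (by omega)
    exact (h1.tail h2).tail h3

theorem rect_left {F : Set (ℤ × ℤ)} (hF : ∀ v ∈ Rsq a b c d, v ∈ F) (hcd : c < d) :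
    ∀ (n : ℕ) (y : ℤ), a + n ≤ b → c ≤ y → y ≤ d → ∃ y', c ≤ y' ∧ y' ≤ d ∧
      (y' - y - n) % 2 = 0 ∧ ReflTransGen (PStep F) (a + n, y) (a, y') := by
  intro n
  induction n with
  | zero =>
    intro y _ h1 h2
    refine ⟨y, h1, h2, by simp, ?_⟩
    simp only [Nat.cast_zero, add_zero]
    exact ReflTransGen.refl
  | succ n ih =>
    intro y hn h1 h2
    push_cast at hn ⊢
    by_cases hy : y < d
    · obtain ⟨y', h3, h4, h5, h6⟩ := ih (y + 1) (by omega) (by omega) (by omega)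
      have h7 : PStep F (a + (n + 1), y) (a + n, y + 1) :=
        rect_step' hF (by omega) (by omega) (by omega) (by omega)
      exact ⟨y', h3, h4, by omega, ReflTransGen.head h7 h6⟩
    · obtain ⟨y', h3, h4, h5, h6⟩ := ih (y - 1) (by omega) (by omega) (by omega)
      have h7 : PStep F (a + (n + 1), y) (a + n, y - 1) :=
        rect_step' hF (by omega) (by omega) (by omega) (by omega)
      exact ⟨y', h3, h4, by omega, ReflTransGen.head h7 h6⟩

/-- The sites of one parity of a rectangle are joined in the rectangle. -/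
theorem rect_conn {F : Set (ℤ × ℤ)} (hF : ∀ v ∈ Rsq a b c d, v ∈ F) (hab : a < b) (hcd : c < d)
    {z z' : ℤ × ℤ} (hz : a ≤ z.1 ∧ z.1 ≤ b ∧ c ≤ z.2 ∧ z.2 ≤ d)
    (hz' : a ≤ z'.1 ∧ z'.1 ≤ b ∧ c ≤ z'.2 ∧ z'.2 ≤ d)
    (hp : (z.1 + z.2 - (z'.1 + z'.2)) % 2 = 0) : ReflTransGen (PStep F) z z' := by
  have key : ∀ z : ℤ × ℤ, (a ≤ z.1 ∧ z.1 ≤ b ∧ c ≤ z.2 ∧ z.2 ≤ d) →
      ∃ y', c ≤ y' ∧ y' ≤ d ∧ (y' + a - (z.1 + z.2)) % 2 = 0 ∧
        ReflTransGen (PStep F) z (a, y') := by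
    rintro ⟨x, y⟩ ⟨h1, h2, h3, h4⟩
    simp only at h1 h2 h3 h4
    obtain ⟨n, hn⟩ : ∃ n : ℕ, x = a + n := ⟨(x - a).toNat, by omega⟩
    subst hn
    obtain ⟨y', h5, h6, h7, h8⟩ := rect_left hF hcd n y h2 h3 h4
    exact ⟨y', h5, h6, by simp only; omega, h8⟩
  obtain ⟨y1, h1, h2, h3, h4⟩ := key z hz
  obtain ⟨y2, h5, h6, h7, h8⟩ := key z' hz'
  have key2 : ∀ y1 y2 : ℤ, c ≤ y1 → y2 ≤ d → y1 ≤ y2 → (y2 - y1) % 2 = 0 →
      ReflTransGen (PStep F) (a, y1) (a, y2) := by
    intro y1 y2 k1 k2 k3 k4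
    obtain ⟨n, hn⟩ : ∃ n : ℕ, y2 = y1 + 2 * n := ⟨((y2 - y1) / 2).toNat, by omega⟩
    subst hn
    exact rect_col hF hab n y1 k1 k2
  have h9 : ReflTransGen (PStep F) (a, y1) (a, y2) := by
    rcases le_total y1 y2 with h | h
    · exact key2 y1 y2 h1 h6 h (by omega)
    · exact cl_symm (F := F) (key2 y2 y1 h5 h2 h (by omega))
  exact h4.trans (h9.trans (cl_symm (F := F) h8))

theorem oconn_rect (hab : a < b) (hcd : c < d) : OConn (↑(Rsq a b c d) : Set (ℤ × ℤ)) := by
  intro v hv w hw z z' hz hz' ho ho'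
  have h1 := mem_Rsq.1 (Finset.mem_coe.1 hv)
  have h2 := mem_Rsq.1 (Finset.mem_coe.1 hw)
  rw [Int.odd_iff] at ho ho'
  simp only [Cor] at hz hz'
  refine rect_conn (a := a) (b := b) (c := c) (d := d) (fun v hv => Finset.mem_coe.2 hv) hab hcd ?_ ?_
    ?_ <;> omega

/-! ### clusters of odd sites -/

/-- The squares of `F` with an odd corner in the cluster of `t`. -/
def OT (F : Set (ℤ × ℤ)) (t : ℤ × ℤ) : Set (ℤ × ℤ) :=
  {v | v ∈ F ∧ ∃ u ∈ cl F t, Odd (u.1 + u.2) ∧ Cor v u}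

theorem oconn_OT {F : Set (ℤ × ℤ)} {t : ℤ × ℤ} : OConn (OT F t) := by
  rintro v ⟨hv, u, hu, huo, hvu⟩ w ⟨hw, u', hu', huo', hwu'⟩ z z' hz hz' ho ho'
  have hst : ∀ x ∈ cl F t, ∀ y, Odd (x.1 + x.2) → PStep F x y → PStep (OT F t) x y := by
    intro x hx y hxo hxy
    exact ⟨hxy.1, hxy.2.1, hxy.2.2, x, hx, hxo, (cor_of_step hxy).1⟩
  have hpath : ReflTransGen (PStep F) u u' := ReflTransGen.trans (cl_symm hu) hu'
  have key : ∀ x, ReflTransGen (PStep F) u x → ReflTransGen (PStep (OT F t)) u x := by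
    intro x hx
    induction hx with
    | refl => exact ReflTransGen.refl
    | @tail x y hux hxy ih =>
      have hxo : Odd (x.1 + x.2) := by
        have h1 := cl_parity (show x ∈ cl F u from hux)
        rw [Int.odd_iff] at huo ⊢
        omega
      exact ih.tail (hst x (ReflTransGen.trans hu hux) y hxo hxy)
  have h1 : ReflTransGen (PStep (OT F t)) z u :=
    step_odd (v := v) ⟨hv, u, hu, huo, hvu⟩ hz hvu ho huo
  have h2 : ReflTransGen (PStep (OT F t)) u' z' :=
    step_odd (v := w) ⟨hw, u', hu', huo', hwu'⟩ hwu' hz' huo' ho'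
  exact h1.trans ((key u' hpath).trans h2)

/-- **Exponential moment of the number of the crossing clusters, with frozen squares.** -/
theorem frT_exp (m : ℕ) {c₀ : ℝ} (hc : 0 < c₀) : ∃ l C : ℝ, 0 < l ∧ 0 < C ∧ ∀ (Q : ℝ), 0 < Q →
    Q ≤ 1 → ∀ (a a' b' b c c' d' d : ℤ), a ≤ a' → a' < b' → b' ≤ b → c < c' → c' < d' → d' < d →
    c₀ ≤ dV Q a' b' c d →
    ∀ (E : Finset (ℤ × ℤ)) (η : Cfg) (s t : Fin m → ℤ × ℤ),
      E ⊆ Rsq a b c' d' → Good η → (∀ i, Even ((s i).1 + (s i).2)) →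
      (∀ v ∈ Rsq a' b' c' d', v ∉ E → η v = false → ∃ i, ∃ u, Odd (u.1 + u.2) ∧ Cor v u ∧
        u ∈ cl {z | z ∈ Rsq a b c d ∧ z ∉ E} (t i)) →
      (∀ v ∈ Rsq a' b' c' d', v ∉ E → η v = true → ∀ u : ℤ × ℤ, Even (u.1 + u.2) → Cor v u →
        ∃ i, u ∈ cl {z | z ∈ Rsq a b c d ∧ z ∉ E ∧ η z = true} (s i)) →
      Ex Q E η (fun ω => Real.exp (l *
        ((CrC a b (Op (rest E (VS (Op (Rsq a b c d) ω) s)) ω)).ncard : ℝ))) ≤ C := by
  classical
  obtain ⟨l, C, hl, hC, hns⟩ := nsT_exp (m + m + 2) hc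
  refine ⟨l, C, hl, hC, fun Q hQ hQ1 a a' b' b c c' d' d haa hab' hbb hcc hcd' hdd hc₀ E η s t hE hη
    hse ht hs => ?_⟩
  have hab : a < b := by omega
  set S := Rsq a b c d with hS
  have hES : E ⊆ S := by
    intro v hv
    have h1 := mem_Rsq.1 (hE hv)
    rw [hS, mem_Rsq]
    omega
  -- the clusters of the frozen squares
  have hV : ∀ ω : Cfg, (∀ v, v ∉ E → ω v = η v) → ∀ v ∈ Rsq a' b' c' d', v ∉ E → ω v = true →
      ∀ u : ℤ × ℤ, Even (u.1 + u.2) → Cor v u → u ∈ VS (Op S ω) s := by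
    intro ω hω v hv hvE hvo u hue hvu
    obtain ⟨i, hi⟩ := hs v hv hvE (by rw [← hω v hvE]; exact hvo) u hue hvu
    refine ⟨i, rtg_mono (F := {z | z ∈ S ∧ z ∉ E ∧ η z = true}) (F' := Op S ω) ?_ hi⟩
    rintro z ⟨h1, h2, h3⟩
    exact ⟨h1, by rw [hω z h2]; exact h3⟩
  set k : Cfg → (Fin m → Set (ℤ × ℤ)) := fun ω i => cl (Op S ω) (s i) with hk
  have e1 : C = Ex Q E η (fun _ => C) := (Ex_const hQ _).symm
  rw [e1, Ex_split (α := Fin m → Set (ℤ × ℤ)) k
      (fun ω => Real.exp (l * ((CrC a b (Op (rest E (VS (Op S ω) s)) ω)).ncard : ℝ))),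
    Ex_split (α := Fin m → Set (ℤ × ℤ)) k (fun _ => C)]
  refine Finset.sum_le_sum fun K _ => ?_
  set V : Set (ℤ × ℤ) := {u | ∃ i : Fin m, u ∈ K i} with hVd
  set D0 := rest E V with hD0
  have hsub : D0 ⊆ E := fun v hv => (mem_rest.1 hv).1
  set I : Cfg → ℝ := {ω | k ω = K}.indicator 1 with hI
  have hInd : Ind D0 I := ind_tup s K hES
  have hI0 : ∀ ω, 0 ≤ I ω := ind_nonneg _
  have hIz : ∀ ω, k ω ≠ K → I ω = 0 := fun ω h =>
    Set.indicator_of_notMem (show ω ∉ {ω | k ω = K} from h) _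
  have hVS : ∀ ω, k ω = K → VS (Op S ω) s = V := by
    intro ω hω
    ext u
    constructor
    · rintro ⟨i, hi⟩
      refine ⟨i, ?_⟩
      rw [← hω]; exact hi
    · rintro ⟨i, hi⟩
      refine ⟨i, ?_⟩
      rw [← hω] at hi; exact hi
  have h1 : Ex Q E η (fun ω => I ω *
        Real.exp (l * ((CrC a b (Op (rest E (VS (Op S ω) s)) ω)).ncard : ℝ))) =
      Ex Q E η (fun ω => I ω * Real.exp (l * ((CrC a b (Op D0 ω)).ncard : ℝ))) := by
    refine Ex_congr fun T _ => ?_
    by_cases h : k (cf E η T) = K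
    · rw [hVS _ h]
    · rw [hIz _ h, zero_mul, zero_mul]
  rw [h1, markov f_markov hQ hsub hη
    (F := fun ω => Real.exp (l * ((CrC a b (Op D0 ω)).ncard : ℝ))) hInd]
  refine Ex_mono hQ fun T _ => ?_
  by_cases h : k (cf E η T) = K
  · have hgood := f_good.1 E η T hη
    have hVe : ∀ i, K i = cl (Op S (cf E η T)) (s i) := fun i => (congrFun h i).symm
    have hslab1 : (Rsq a b c c') ⊆ S := by
      intro v hv
      rw [mem_Rsq] at hv
      rw [hS, mem_Rsq]
      omega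
    have hslab2 : (Rsq a b d' d) ⊆ S := by
      intro v hv
      rw [mem_Rsq] at hv
      rw [hS, mem_Rsq]
      omega
    have hObs : ObsT a a' b' b c d D0 (Fin.append (Fin.append
        (fun i => OT {z | z ∈ S ∧ z ∉ E} (t i)) fun i => Tch a b c d (K i))
        ![(↑(Rsq a b c c') : Set (ℤ × ℤ)), ↑(Rsq a b d' d)]) := by
      refine ⟨hsub.trans hES, ?_, ?_, ?_⟩
      · intro v hv hvD
        have hvS : v ∈ S := Rsq_subT haa hbb hv
        have hvr := mem_Rsq.1 hv
        by_cases hlow : v.2 < c'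
        · refine ⟨Fin.natAdd (m + m) 0, ?_⟩
          rw [Fin.append_right]
          show v ∈ Rsq a b c c'
          rw [mem_Rsq]
          omega
        by_cases hup : d' ≤ v.2
        · refine ⟨Fin.natAdd (m + m) 1, ?_⟩
          rw [Fin.append_right]
          show v ∈ Rsq a b d' d
          rw [mem_Rsq]
          omega
        have hvT : v ∈ Rsq a' b' c' d' := by
          rw [mem_Rsq]
          omega
        by_cases hvE : v ∈ E
        · -- touches a cluster
          rw [hD0, mem_rest] at hvD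
          push Not at hvD
          obtain ⟨u, ⟨i, hu⟩, hc⟩ := hvD hvE
          refine ⟨Fin.castAdd 2 (Fin.natAdd m i), ?_⟩
          rw [Fin.append_left, Fin.append_right]
          exact ⟨hvS, u, hu, hc⟩
        · by_cases hvo : η v = true
          · obtain ⟨u, hue, hu⟩ := exists_even v
            obtain ⟨i, hi⟩ := hV _ (fun v hv => cf_out hv) v hvT hvE
              (by rw [cf_out hvE]; exact hvo) u hue hu
            refine ⟨Fin.castAdd 2 (Fin.natAdd m i), ?_⟩
            rw [Fin.append_left, Fin.append_right]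
            refine ⟨hvS, u, ?_, hu⟩
            rw [hVe i]
            exact hi
          · obtain ⟨i, u, huo, hvu, hi⟩ := ht v hvT hvE (by simpa using hvo)
            refine ⟨Fin.castAdd 2 (Fin.castAdd m i), ?_⟩
            rw [Fin.append_left, Fin.append_left]
            exact ⟨⟨hvS, hvE⟩, u, hi, huo, hvu⟩
      · intro i
        refine Fin.addCases (fun i => ?_) (fun i => ?_) i
        · rw [Fin.append_left]
          refine Fin.addCases (fun i => ?_) (fun i => ?_) i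
          · rw [Fin.append_left]
            rintro v ⟨hv, -⟩
            exact ⟨hv.1, fun h => hv.2 (hsub h)⟩
          · rw [Fin.append_right]
            rintro v ⟨hv, u, hu, hc⟩
            exact ⟨hv, fun h => (mem_rest.1 h).2 u ⟨i, hu⟩ hc⟩
        · rw [Fin.append_right]
          fin_cases i
          · intro v hv
            have hv' : v ∈ Rsq a b c c' := hv
            refine ⟨hslab1 hv', fun h => ?_⟩
            have h2 := mem_Rsq.1 (hE (hsub h))
            have h3 := mem_Rsq.1 hv'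
            omega
          · intro v hv
            have hv' : v ∈ Rsq a b d' d := hv
            refine ⟨hslab2 hv', fun h => ?_⟩
            have h2 := mem_Rsq.1 (hE (hsub h))
            have h3 := mem_Rsq.1 hv'
            omega
      · intro i
        refine Fin.addCases (fun i => ?_) (fun i => ?_) i
        · rw [Fin.append_left]
          refine Fin.addCases (fun i => ?_) (fun i => ?_) i
          · rw [Fin.append_left]
            exact oconn_OT
          · rw [Fin.append_right, hVe i]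
            exact oconn_tch (hse i) (Finset.Subset.refl _)
        · rw [Fin.append_right]
          fin_cases i
          · exact oconn_rect hab hcc
          · exact oconn_rect hab hdd
    have h2 := hns Q hQ hQ1 a a' b' b c d haa hab' hbb (by omega) hc₀ D0 _ (cf E η T) hObs hgood
    exact mul_le_mul_of_nonneg_left h2 (hI0 (cf E η T))
  · rw [hIz _ h]
    simp

end Vale.Agent.P167.H108
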