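import Vale.Agent.P167.H108.RowV

/-!
# P167, `0 < q ≤ 1`: number of the clusters which cross a rectangle from bottom to top, frozen squares in
a larger rectangle

`frT_expV`: the transposed version of `frT_exp`.
-/

set_option autoImplicit false

namespace Vale.Agent.P167.H108

open Finset Vale.Agent.P167.FK Vale.Agent.P167.FKA
open Vale.Agent.P145.FB (PStep PConn step_of_corners)
open Vale.Agent.P167.H166 (cl cl_eq cl_parity rtg_mono)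
open Vale.Agent.P167.H262 (Rsq mem_Rsq Rsi rtg_rect CD rough_rect_dual mem_Db_rect)
open Vale.Agent.P167.H259 (f_markov)
open Vale.Agent.P167.H562.QM (cl_symm exists_even)
open Vale.Agent.P167.H816 (dV)
open Vale.Agent.P167.H722
open Relation

variable {Q : ℝ} {a a' b' b c c' d' d : ℤ} {D E : Finset (ℤ × ℤ)} {η ω : Cfg} {m : ℕ}

theorem mem_Rsq_sw {v : ℤ × ℤ} : sw v ∈ Rsq a b c d ↔ v ∈ Rsq c d a b := by
  rw [mem_Rsq, mem_Rsq]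
  simp only [sw]
  omega

theorem mem_cl_sw {F F' : Set (ℤ × ℤ)} (h : ∀ v ∈ F, sw v ∈ F') {s t : ℤ × ℤ} (ht : t ∈ cl F s) :
    sw t ∈ cl F' (sw s) := rtg_sw h ht

/-- **Exponential moment of the number of the crossing clusters, with frozen squares**, from bottom to
top. -/
theorem frT_expV (m : ℕ) {c₀ : ℝ} (hc : 0 < c₀) : ∃ l C : ℝ, 0 < l ∧ 0 < C ∧ ∀ (Q : ℝ), 0 < Q →
    Q ≤ 1 → ∀ (a a' b' b c c' d' d : ℤ), c ≤ c' → c' < d' → d' ≤ d → a < a' → a' < b' → b' < b →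
    c₀ ≤ dV Q c' d' a b →
    ∀ (E : Finset (ℤ × ℤ)) (η : Cfg) (s t : Fin m → ℤ × ℤ),
      E ⊆ Rsq a' b' c d → Good η → (∀ i, Even ((s i).1 + (s i).2)) →
      (∀ v ∈ Rsq a' b' c' d', v ∉ E → η v = false → ∃ i, ∃ u, Odd (u.1 + u.2) ∧ Cor v u ∧
        u ∈ cl {z | z ∈ Rsq a b c d ∧ z ∉ E} (t i)) →
      (∀ v ∈ Rsq a' b' c' d', v ∉ E → η v = true → ∀ u : ℤ × ℤ, Even (u.1 + u.2) → Cor v u →
        ∃ i, u ∈ cl {z | z ∈ Rsq a b c d ∧ z ∉ E ∧ η z = true} (s i)) →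
      Ex Q E η (fun ω => Real.exp (l *
        ((CrV c d (Op (rest E (VS (Op (Rsq a b c d) ω) s)) ω)).ncard : ℝ))) ≤ C := by
  classical
  obtain ⟨l, C, hl, hC, h⟩ := frT_exp m hc
  refine ⟨l, C, hl, hC, fun Q hQ hQ1 a a' b' b c c' d' d hcc hcd' hdd haa hab' hbb hc₀ E η s t hE hη
    hse ht hs => ?_⟩
  have h1 := h Q hQ hQ1 c c' d' d a a' b' b hcc hcd' hdd haa hab' hbb hc₀ (E.image sw) (η ∘ sw)
    (fun i => sw (s i)) (fun i => sw (t i))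
    (by rw [← Rsq_sw]; exact Finset.image_subset_image hE) (good_sw hη)
    (fun i => even_sw.2 (hse i)) (fun v hv hvE hvo => ?_) (fun v hv hvE hvo u hue hvu => ?_)
  · rw [Ex_sw hQ hη]
    refine le_trans (le_of_eq (Ex_congr fun S _ => ?_)) h1
    set ω : Cfg := cf (E.image sw) (η ∘ sw) S with hω
    have hop1 : ∀ v ∈ Op (Rsq a b c d) (ω ∘ sw), sw v ∈ Op (Rsq c d a b) ω := by
      rintro v ⟨h2, h3⟩
      exact ⟨Finset.mem_coe.2 (mem_Rsq_sw.2 (Finset.mem_coe.1 h2)), h3⟩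
    have hop2 : ∀ v ∈ Op (Rsq c d a b) ω, sw v ∈ Op (Rsq a b c d) (ω ∘ sw) := by
      rintro v ⟨h2, h3⟩
      exact ⟨Finset.mem_coe.2 (mem_Rsq_sw.2 (Finset.mem_coe.1 h2)), h3⟩
    have hV1 : ∀ u ∈ VS (Op (Rsq a b c d) (ω ∘ sw)) s,
        sw u ∈ VS (Op (Rsq c d a b) ω) fun i => sw (s i) := by
      rintro u ⟨i, hi⟩
      exact ⟨i, mem_cl_sw hop1 hi⟩
    have hV2 : ∀ u ∈ VS (Op (Rsq c d a b) ω) (fun i => sw (s i)),
        sw u ∈ VS (Op (Rsq a b c d) (ω ∘ sw)) s := by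
      rintro u ⟨i, hi⟩
      exact ⟨i, mem_cl_sw hop2 hi⟩
    have hr1 : ∀ v ∈ Op (rest (E.image sw) (VS (Op (Rsq c d a b) ω) fun i => sw (s i))) ω,
        sw v ∈ Op (rest E (VS (Op (Rsq a b c d) (ω ∘ sw)) s)) (ω ∘ sw) := by
      rintro v ⟨h2, h3⟩
      obtain ⟨h4, h5⟩ := mem_rest.1 h2
      refine ⟨mem_rest.2 ⟨mem_im_sw.1 h4, fun u hu hvu => h5 (sw u) (hV1 u hu) ?_⟩, h3⟩
      exact cor_sw.1 hvu
    have hr2 : ∀ v ∈ Op (rest E (VS (Op (Rsq a b c d) (ω ∘ sw)) s)) (ω ∘ sw),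
        sw v ∈ Op (rest (E.image sw) (VS (Op (Rsq c d a b) ω) fun i => sw (s i))) ω := by
      rintro v ⟨h2, h3⟩
      obtain ⟨h4, h5⟩ := mem_rest.1 h2
      refine ⟨mem_rest.2 ⟨mem_im_sw.2 h4, fun u hu hvu => h5 (sw u) (hV2 u hu) ?_⟩, h3⟩
      exact cor_sw.1 hvu
    rw [crv_sw hr1 hr2]
  · rw [mem_im_sw] at hvE
    obtain ⟨i, u, huo, hvu, hi⟩ := ht (sw v) (mem_Rsq_sw.2 hv) hvE hvo
    refine ⟨i, sw u, odd_sw.2 huo, ?_, ?_⟩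
    · exact cor_sw.1 hvu
    · refine mem_cl_sw ?_ hi
      rintro z ⟨h2, h3⟩
      exact ⟨mem_Rsq_sw.2 h2, fun h => h3 (mem_im_sw.1 h)⟩
  · rw [mem_im_sw] at hvE
    obtain ⟨i, hi⟩ := hs (sw v) (mem_Rsq_sw.2 hv) hvE hvo (sw u) (even_sw.2 hue) (cor_sw.2 hvu)
    refine ⟨i, ?_⟩
    have h2 := mem_cl_sw (F' := {z | z ∈ Rsq c d a b ∧ z ∉ E.image sw ∧ (η ∘ sw) z = true}) ?_ hi
    · exact h2
    · rintro z ⟨h2, h3, h4⟩
      exact ⟨mem_Rsq_sw.2 h2, fun h => h3 (mem_im_sw.1 h), h4⟩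

end Vale.Agent.P167.H108
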