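import Vale.Agent.P167.H108.RowW
import Vale.Agent.P167.QC.Sep

/-!
# P167, `0 < q ≤ 1`: fresh clusters which cross a rectangle

`Few m T S D η`: the frozen squares of `T` belong to at most `m` clusters of each colour of the frozen
squares of `S`. `rect_h`, `rect_v`: the number of the clusters which cross a rectangle and which do not
touch the open frozen squares of a large box has an exponential moment, if the frozen squares belong to
few clusters.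
-/

set_option autoImplicit false

namespace Vale.Agent.P167.H108

open Finset Vale.Agent.P167.FK Vale.Agent.P167.FKA
open Vale.Agent.P145.FB (PStep PConn step_of_corners)
open Vale.Agent.P167.H166 (cl cl_eq cl_parity rtg_mono CC CC_finite bxx mem_bxx)
open Vale.Agent.P167.H262 (Rsq mem_Rsq Rsi rtg_rect CD rough_rect_dual mem_Db_rect)
open Vale.Agent.P167.H259 (f_markov)
open Vale.Agent.P167.H562.QM (cl_symm exists_even)
open Vale.Agent.P167.H816 (dV VR)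
open Vale.Agent.P167.H722
open Vale.Agent.P167.QC (KF Opb)
open Relation

variable {Q : ℝ} {a a' b' b c c' d' d : ℤ} {D E B R0 S : Finset (ℤ × ℤ)} {η ω : Cfg} {m : ℕ}

/-- The frozen squares of `T` belong to at most `m` clusters of each colour of the frozen squares of the
rectangle. -/
structure Few (m : ℕ) (T : Finset (ℤ × ℤ)) (a b c d : ℤ) (D : Finset (ℤ × ℤ)) (η : Cfg) : Prop where
  op : ∃ s : Fin m → ℤ × ℤ, (∀ i, Even ((s i).1 + (s i).2)) ∧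
    ∀ v ∈ T, v ∉ D → η v = true → ∀ u : ℤ × ℤ, Even (u.1 + u.2) → Cor v u →
      ∃ i, u ∈ cl {z | z ∈ Rsq a b c d ∧ z ∉ D ∧ η z = true} (s i)
  cl : ∃ t : Fin m → ℤ × ℤ, (∀ i, Odd ((t i).1 + (t i).2)) ∧
    ∀ v ∈ T, v ∉ D → η v = false → ∀ u : ℤ × ℤ, Odd (u.1 + u.2) → Cor v u →
      ∃ i, u ∈ H166.cl {z | z ∈ Rsq a b c d ∧ z ∉ D ∧ η z = false} (t i)

/-- The frozen squares of all rectangles in `B` belong to few clusters. -/
def FewA (m : ℕ) (μ : ℤ) (B D : Finset (ℤ × ℤ)) (η : Cfg) : Prop :=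
  ∀ a b c d : ℤ, Rsq a b c d ⊆ B →
    Few m (Rsq (a + μ) (b - μ) (c + μ) (d - μ)) a b c d D η

/-- The seeds of the open frozen clusters, unused seeds do not touch the rectangle. -/
theorem Few.used {T : Finset (ℤ × ℤ)} (h : Few m T a b c d D η) (hT : T ⊆ Rsq a b c d) :
    ∃ s : Fin m → ℤ × ℤ, (∀ i, Even ((s i).1 + (s i).2)) ∧
      (∀ i, (∃ v ∈ Rsq a b c d, v ∉ D ∧ η v = true ∧ Cor v (s i)) ∨
        ∀ v ∈ Rsq a b c d, ¬ Cor v (s i)) ∧
      ∀ v ∈ T, v ∉ D → η v = true → ∀ u : ℤ × ℤ, Even (u.1 + u.2) → Cor v u →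
        ∃ i, u ∈ H166.cl {z | z ∈ Rsq a b c d ∧ z ∉ D ∧ η z = true} (s i) := by
  classical
  obtain ⟨s, hse, hs⟩ := h.op
  set f : ℤ × ℤ := (a - 1 - (a - 1 + c) % 2, c) with hf
  have hfe : Even (f.1 + f.2) := by
    rw [hf, Int.even_iff]
    simp only
    omega
  have hff : ∀ v ∈ Rsq a b c d, ¬ Cor v f := by
    intro v hv hc
    rw [mem_Rsq] at hv
    simp only [hf, Cor] at hc
    omega
  refine ⟨fun i => if ∃ v ∈ Rsq a b c d, v ∉ D ∧ η v = true ∧ Cor v (s i) then s i else f,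
    fun i => ?_, fun i => ?_, fun v hv hvD hvo u hue hvu => ?_⟩
  · beta_reduce
    split_ifs
    · exact hse i
    · exact hfe
  · beta_reduce
    by_cases h1 : ∃ v ∈ Rsq a b c d, v ∉ D ∧ η v = true ∧ Cor v (s i)
    · rw [if_pos h1]
      exact Or.inl h1
    · rw [if_neg h1]
      exact Or.inr hff
  · obtain ⟨i, hi⟩ := hs v hv hvD hvo u hue hvu
    refine ⟨i, ?_⟩
    have h1 : ∃ v ∈ Rsq a b c d, v ∉ D ∧ η v = true ∧ Cor v (s i) := by
      have hi' : ReflTransGen (PStep {z | z ∈ Rsq a b c d ∧ z ∉ D ∧ η z = true}) (s i) u := hi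
      rcases ReflTransGen.cases_head hi' with h2 | ⟨w, h2, -⟩
      · rw [h2]
        exact ⟨v, hT hv, hvD, hvo, hvu⟩
      · exact ⟨_, h2.2.2.1, h2.2.2.2.1, h2.2.2.2.2, (cor_of_step h2).1⟩
    beta_reduce
    rw [if_pos h1]
    exact hi

/-- The explored clusters of the frozen squares. -/
theorem VS_KF {s : Fin m → ℤ × ℤ} (hSB : S ⊆ B) (hse : ∀ i, Even ((s i).1 + (s i).2))
    (hs : ∀ i, (∃ v ∈ S, v ∉ D ∧ ω v = true ∧ Cor v (s i)) ∨ ∀ v ∈ S, ¬ Cor v (s i)) {u v : ℤ × ℤ}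
    (hu : u ∈ VS (Op S ω) s) (hv : v ∈ S) (hvu : Cor v u) : u ∈ KF B (D ∩ B) ω true 0 := by
  obtain ⟨i, hi⟩ := hu
  have hi' : ReflTransGen (PStep (Op S ω)) (s i) u := hi
  rcases hs i with ⟨w, hw, hwD, hwo, hws⟩ | h1
  · have h0 : s i ∈ KF B (D ∩ B) ω true 0 :=
      ⟨s i, w, hSB hw, fun h => hwD (Finset.mem_inter.1 h).1, hwo, hws, Int.even_iff.1 (hse i),
        ReflTransGen.refl⟩
    clear hi hvu
    induction hi' with
    | refl => exact h0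
    | @tail x y hsx hxy ih =>
      have hc := cor_of_step hxy
      have hxe : Even (x.1 + x.2) := cl_even (hse i) (show x ∈ cl (Op S ω) (s i) from hsx)
      have hye : Even (y.1 + y.2) := (FKA.even_step hxy).1 hxe
      by_cases hk : (min x.1 y.1, min x.2 y.2) ∈ D
      · obtain ⟨s', w', h2, h3, h4, h5, h6, h7⟩ := ih
        refine ⟨s', w', h2, h3, h4, h5, h6, ReflTransGen.tail h7 ⟨hxy.1, hxy.2.1, ?_, hxy.2.2.2⟩⟩
        exact Finset.mem_inter.2 ⟨hk, hSB hxy.2.2.1⟩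
      · exact ⟨y, _, hSB hxy.2.2.1, fun h => hk (Finset.mem_inter.1 h).1, hxy.2.2.2, hc.2,
          Int.even_iff.1 hye, ReflTransGen.refl⟩
  · rcases ReflTransGen.cases_head hi' with h2 | ⟨w, h2, -⟩
    · rw [← h2] at hvu
      exact absurd hvu (h1 v hv)
    · exact absurd (cor_of_step h2).1 (h1 _ h2.2.2.1)

theorem KF_even {u : ℤ × ℤ} (hu : u ∈ KF B D ω true 0) : Even (u.1 + u.2) := by
  obtain ⟨s', w', h2, h3, h4, h5, h6, h7⟩ := hu
  have h8 := cl_parity h7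
  rw [Int.even_iff]
  omega

/-- The clusters which do not touch the frozen squares. -/
theorem cl_fresh {s : Fin m → ℤ × ℤ} (hR : R0 ⊆ S) (hSB : S ⊆ B)
    (hse : ∀ i, Even ((s i).1 + (s i).2))
    (hs : ∀ i, (∃ v ∈ S, v ∉ D ∧ ω v = true ∧ Cor v (s i)) ∨ ∀ v ∈ S, ¬ Cor v (s i)) {u : ℤ × ℤ}
    (hue : Even (u.1 + u.2)) (hu : u ∉ KF B (D ∩ B) ω true 0) :
    cl (Op (rest (D ∩ B) (KF B (D ∩ B) ω true 0) ∩ R0) ω) u =
      cl (Op (rest (D ∩ R0) (VS (Op S ω) s)) ω) u := by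
  set W : Set (ℤ × ℤ) := KF B (D ∩ B) ω true 0 with hW
  apply Set.Subset.antisymm
  · intro t ht
    refine rtg_mono (F := Op (rest (D ∩ B) W ∩ R0) ω)
      (F' := Op (rest (D ∩ R0) (VS (Op S ω) s)) ω) ?_ ht
    rintro v ⟨h1, h2⟩
    obtain ⟨h3, h4⟩ := Finset.mem_inter.1 (Finset.mem_coe.1 h1)
    obtain ⟨h5, h6⟩ := mem_rest.1 h3
    refine ⟨Finset.mem_coe.2 (mem_rest.2 ⟨Finset.mem_inter.2 ⟨(Finset.mem_inter.1 h5).1, h4⟩,
      fun w hw hvw => h6 w (VS_KF hSB hse hs hw (hR h4) hvw) hvw⟩), h2⟩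
  · intro t ht
    have ht' : ReflTransGen (PStep (Op (rest (D ∩ R0) (VS (Op S ω) s)) ω)) u t := ht
    clear ht
    have key : t ∈ cl (Op (rest (D ∩ B) W ∩ R0) ω) u ∧ t ∉ W := by
      induction ht' with
      | refl => exact ⟨ReflTransGen.refl, hu⟩
      | @tail x y hux hxy ih =>
        obtain ⟨hx, hxW⟩ := ih
        have hc := cor_of_step hxy
        have hxe : Even (x.1 + x.2) :=
          cl_even hue (show x ∈ cl (Op (rest (D ∩ R0) (VS (Op S ω) s)) ω) u from hux)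
        have hye : Even (y.1 + y.2) := (FKA.even_step hxy).1 hxe
        obtain ⟨h1, h2⟩ := hxy.2.2
        set k : ℤ × ℤ := (min x.1 y.1, min x.2 y.2) with hk
        obtain ⟨h3, -⟩ := mem_rest.1 (Finset.mem_coe.1 h1)
        obtain ⟨h4, h5⟩ := Finset.mem_inter.1 h3
        have hkB : k ∈ D ∩ B := Finset.mem_inter.2 ⟨h4, hSB (hR h5)⟩
        -- closure of `W`
        have hcl : ∀ w z : ℤ × ℤ, w ∈ W → Cor k w → Cor k z → Even (z.1 + z.2) → z ∈ W := by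
          rintro w z hw hkw hkz hze
          have hwe := KF_even hw
          obtain ⟨s', w', g2, g3, g4, g5, g6, g7⟩ := hw
          refine ⟨s', w', g2, g3, g4, g5, g6, ?_⟩
          by_cases hne : w = z
          · rw [← hne]; exact g7
          · exact ReflTransGen.tail g7 (step_of_cor (v := k) ⟨hkB, h2⟩ hkw hkz hwe hze hne)
        have hk2 : k ∈ rest (D ∩ B) W :=
          mem_rest.2 ⟨hkB, fun w hw hkw => hxW (hcl w x hw hkw hc.1 hxe)⟩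
        refine ⟨ReflTransGen.tail hx ⟨hxy.1, hxy.2.1,
          Finset.mem_coe.2 (Finset.mem_inter.2 ⟨hk2, h5⟩), h2⟩, fun hyW => ?_⟩
        exact hxW (hcl y x hyW hc.2 hc.1 hxe)
    exact key.1

theorem crc_fresh {s : Fin m → ℤ × ℤ} (hab : a < b) (hR : R0 ⊆ S) (hSB : S ⊆ B)
    (hse : ∀ i, Even ((s i).1 + (s i).2))
    (hs : ∀ i, (∃ v ∈ S, v ∉ D ∧ ω v = true ∧ Cor v (s i)) ∨ ∀ v ∈ S, ¬ Cor v (s i)) :
    (CrC a b (Op (rest (D ∩ B) (KF B (D ∩ B) ω true 0) ∩ R0) ω)).ncard ≤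
      (CrC a b (Op (rest (D ∩ R0) (VS (Op S ω) s)) ω)).ncard := by
  refine Set.ncard_le_ncard ?_ (crc_fin hab _ ω)
  rintro C ⟨u, hue, hua, rfl, t, ht, htb⟩
  have hu : u ∉ KF B (D ∩ B) ω true 0 := by
    have ht' : ReflTransGen (PStep (Op (rest (D ∩ B) (KF B (D ∩ B) ω true 0) ∩ R0) ω)) u t := ht
    rcases ReflTransGen.cases_head ht' with h1 | ⟨w, h1, -⟩
    · rw [← h1] at htb
      omega
    · intro h2
      have h3 := (Finset.mem_inter.1 (Finset.mem_coe.1 h1.2.2.1)).1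
      exact (mem_rest.1 h3).2 u h2 (cor_of_step h1).1
  have e := cl_fresh hR hSB hse hs hue hu
  refine ⟨u, hue, hua, e, t, ht, htb⟩

theorem crv_fresh {s : Fin m → ℤ × ℤ} (hab : a < b) (hR : R0 ⊆ S) (hSB : S ⊆ B)
    (hse : ∀ i, Even ((s i).1 + (s i).2))
    (hs : ∀ i, (∃ v ∈ S, v ∉ D ∧ ω v = true ∧ Cor v (s i)) ∨ ∀ v ∈ S, ¬ Cor v (s i)) :
    (CrV a b (Op (rest (D ∩ B) (KF B (D ∩ B) ω true 0) ∩ R0) ω)).ncard ≤
      (CrV a b (Op (rest (D ∩ R0) (VS (Op S ω) s)) ω)).ncard := by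
  refine Set.ncard_le_ncard ?_ (crv_fin hab _ ω)
  rintro C ⟨u, hue, hua, rfl, t, ht, htb⟩
  have hu : u ∉ KF B (D ∩ B) ω true 0 := by
    have ht' : ReflTransGen (PStep (Op (rest (D ∩ B) (KF B (D ∩ B) ω true 0) ∩ R0) ω)) u t := ht
    rcases ReflTransGen.cases_head ht' with h1 | ⟨w, h1, -⟩
    · rw [← h1] at htb
      omega
    · intro h2
      have h3 := (Finset.mem_inter.1 (Finset.mem_coe.1 h1.2.2.1)).1
      exact (mem_rest.1 h3).2 u h2 (cor_of_step h1).1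
  have e := cl_fresh hR hSB hse hs hue hu
  refine ⟨u, hue, hua, e, t, ht, htb⟩

/-- **Fresh clusters crossing a rectangle from left to right.** -/
theorem rect_h (m : ℕ) (hQ : 0 < Q) (hQ1 : Q ≤ 1) (hV : VR Q) : ∃ l C : ℝ, 0 < l ∧ 0 < C ∧
    ∀ (r μ : ℤ), 1 ≤ μ → 2 * μ ≤ r → ∀ (a b c' d' : ℤ), b = a + (2 * r + 1) →
      d' = c' + (10 * r + 5) → ∀ (B D : Finset (ℤ × ℤ)) (η : Cfg), Good η →
      Rsq a b (c' - μ) (c' - μ + 16 * (2 * r + 1 - 2 * μ)) ⊆ B → FewA m μ B D η →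
      Ex Q D η (fun ω => Real.exp (l * ((CrC a b
        (Op (rest (D ∩ B) (KF B (D ∩ B) ω true 0) ∩ Rsq a b c' d') ω)).ncard : ℝ))) ≤ C := by
  obtain ⟨c₀, hc₀, hV16⟩ := hV 16
  obtain ⟨l, C, hl, hC, h⟩ := frT_exp m hc₀
  refine ⟨l, C, hl, hC, fun r μ hμ hr a b c' d' hb hd' B D η hη hB hF => ?_⟩
  obtain ⟨w, hw⟩ : ∃ w, w = 2 * r + 1 - 2 * μ := ⟨_, rfl⟩
  obtain ⟨c, hc⟩ : ∃ c, c = c' - μ := ⟨_, rfl⟩
  obtain ⟨d, hd⟩ : ∃ d, d = c + 16 * w := ⟨_, rfl⟩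
  rw [← hw, ← hc, ← hd] at hB
  have hab : a < b := by omega
  have hdV : c₀ ≤ dV Q (a + μ) (b - μ) c d := by
    have h1 := (hV16 w (a + μ) c (by omega)).2.2.2
    rw [show a + μ + w = b - μ by omega] at h1
    rw [hd]
    exact_mod_cast h1
  have hT : Rsq (a + μ) (b - μ) (c + μ) (d - μ) ⊆ Rsq a b c d := by
    intro v hv
    rw [mem_Rsq] at hv ⊢
    omega
  have hFew := hF a b c d hB
  obtain ⟨s, hse, hsu, hs⟩ := hFew.used hT
  obtain ⟨t, -, ht⟩ := hFew.cl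
  set R0 := Rsq a b c' d' with hR0
  have hR : R0 ⊆ Rsq a b c d := by
    intro v hv
    rw [hR0, mem_Rsq] at hv
    rw [mem_Rsq]
    omega
  have hTT : Rsq (a + μ) (b - μ) c' d' ⊆ Rsq (a + μ) (b - μ) (c + μ) (d - μ) := by
    intro v hv
    rw [mem_Rsq] at hv ⊢
    omega
  have hTR : Rsq (a + μ) (b - μ) c' d' ⊆ R0 := by
    intro v hv
    rw [mem_Rsq] at hv
    rw [hR0, mem_Rsq]
    omega
  set E := D ∩ R0 with hE
  have hED : E ⊆ D := Finset.inter_subset_left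
  have h1 : Ex Q D η (fun ω => Real.exp (l * ((CrC a b
      (Op (rest (D ∩ B) (KF B (D ∩ B) ω true 0) ∩ R0) ω)).ncard : ℝ))) ≤
      Ex Q D η (fun ω => (fun _ => (1 : ℝ)) ω * Real.exp (l *
        ((CrC a b (Op (rest E (VS (Op (Rsq a b c d) ω) s)) ω)).ncard : ℝ))) := by
    refine Ex_mono hQ fun T hT' => ?_
    rw [one_mul]
    refine Real.exp_le_exp.2 (mul_le_mul_of_nonneg_left ?_ hl.le)
    have h2 := crc_fresh (ω := cf D η T) hab hR hB hse fun i => (hsu i).imp_left (by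
      rintro ⟨v, g1, g2, g3, g4⟩
      exact ⟨v, g1, g2, by rw [cf_out g2]; exact g3, g4⟩)
    exact_mod_cast h2
  refine h1.trans ?_
  rw [markov f_markov hQ hED hη (F := fun ω => Real.exp (l *
        ((CrC a b (Op (rest E (VS (Op (Rsq a b c d) ω) s)) ω)).ncard : ℝ)))
    (G := fun _ => (1 : ℝ)) (fun _ _ _ => rfl)]
  have e1 : C = Ex Q D η (fun _ => C) := (Ex_const hQ _).symm
  rw [e1]
  refine Ex_mono hQ fun T hT' => ?_
  rw [one_mul]
  refine h Q hQ hQ1 a (a + μ) (b - μ) b c c' d' d (by omega) (by omega) (by omega) (by omega)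
    (by omega) (by omega) hdV E (cf D η T) s t Finset.inter_subset_right (f_good.1 D η T hη) hse
    (fun v hv hvE hvo => ?_) (fun v hv hvE hvo u hue hvu => ?_)
  · have hvD : v ∉ D := fun h => hvE (Finset.mem_inter.2 ⟨h, hTR hv⟩)
    rw [cf_out hvD] at hvo
    obtain ⟨u, huo, hvu⟩ := exists_odd v
    obtain ⟨i, hi⟩ := ht v (hTT hv) hvD hvo u huo hvu
    refine ⟨i, u, huo, hvu, rtg_mono (F := {z | z ∈ Rsq a b c d ∧ z ∉ D ∧ η z = false})
      (F' := {z | z ∈ Rsq a b c d ∧ z ∉ E}) (fun z hz => ⟨hz.1, fun h => hz.2.1 (hED h)⟩) hi⟩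
  · have hvD : v ∉ D := fun h => hvE (Finset.mem_inter.2 ⟨h, hTR hv⟩)
    rw [cf_out hvD] at hvo
    obtain ⟨i, hi⟩ := hs v (hTT hv) hvD hvo u hue hvu
    refine ⟨i, rtg_mono (F := {z | z ∈ Rsq a b c d ∧ z ∉ D ∧ η z = true})
      (F' := {z | z ∈ Rsq a b c d ∧ z ∉ E ∧ cf D η T z = true}) (fun z hz =>
        ⟨hz.1, fun h => hz.2.1 (hED h), by rw [cf_out hz.2.1]; exact hz.2.2⟩) hi⟩

/-- **Fresh clusters crossing a rectangle from bottom to top.** -/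
theorem rect_v (m : ℕ) (hQ : 0 < Q) (hQ1 : Q ≤ 1) (hV : VR Q) : ∃ l C : ℝ, 0 < l ∧ 0 < C ∧
    ∀ (r μ : ℤ), 1 ≤ μ → 2 * μ ≤ r → ∀ (a' b' c d : ℤ), d = c + (2 * r + 1) →
      b' = a' + (10 * r + 5) → ∀ (B D : Finset (ℤ × ℤ)) (η : Cfg), Good η →
      Rsq (a' - μ) (a' - μ + 16 * (2 * r + 1 - 2 * μ)) c d ⊆ B → FewA m μ B D η →
      Ex Q D η (fun ω => Real.exp (l * ((CrV c d
        (Op (rest (D ∩ B) (KF B (D ∩ B) ω true 0) ∩ Rsq a' b' c d) ω)).ncard : ℝ))) ≤ C := by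
  obtain ⟨c₀, hc₀, hV16⟩ := hV 16
  obtain ⟨l, C, hl, hC, h⟩ := frT_expV m hc₀
  refine ⟨l, C, hl, hC, fun r μ hμ hr a' b' c d hd hb' B D η hη hB hF => ?_⟩
  obtain ⟨w, hw⟩ : ∃ w, w = 2 * r + 1 - 2 * μ := ⟨_, rfl⟩
  obtain ⟨a, ha⟩ : ∃ a, a = a' - μ := ⟨_, rfl⟩
  obtain ⟨b, hb⟩ : ∃ b, b = a + 16 * w := ⟨_, rfl⟩
  rw [← hw, ← ha, ← hb] at hB
  have hcd : c < d := by omega
  have hdV : c₀ ≤ dV Q (c + μ) (d - μ) a b := by
    have h1 := (hV16 w (c + μ) a (by omega)).2.2.2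
    rw [show c + μ + w = d - μ by omega] at h1
    rw [hb]
    exact_mod_cast h1
  have hT : Rsq (a + μ) (b - μ) (c + μ) (d - μ) ⊆ Rsq a b c d := by
    intro v hv
    rw [mem_Rsq] at hv ⊢
    omega
  have hFew := hF a b c d hB
  obtain ⟨s, hse, hsu, hs⟩ := hFew.used hT
  obtain ⟨t, -, ht⟩ := hFew.cl
  set R0 := Rsq a' b' c d with hR0
  have hR : R0 ⊆ Rsq a b c d := by
    intro v hv
    rw [hR0, mem_Rsq] at hv
    rw [mem_Rsq]
    omega
  have hTT : Rsq a' b' (c + μ) (d - μ) ⊆ Rsq (a + μ) (b - μ) (c + μ) (d - μ) := by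
    intro v hv
    rw [mem_Rsq] at hv ⊢
    omega
  have hTR : Rsq a' b' (c + μ) (d - μ) ⊆ R0 := by
    intro v hv
    rw [mem_Rsq] at hv
    rw [hR0, mem_Rsq]
    omega
  set E := D ∩ R0 with hE
  have hED : E ⊆ D := Finset.inter_subset_left
  have h1 : Ex Q D η (fun ω => Real.exp (l * ((CrV c d
      (Op (rest (D ∩ B) (KF B (D ∩ B) ω true 0) ∩ R0) ω)).ncard : ℝ))) ≤
      Ex Q D η (fun ω => (fun _ => (1 : ℝ)) ω * Real.exp (l *
        ((CrV c d (Op (rest E (VS (Op (Rsq a b c d) ω) s)) ω)).ncard : ℝ))) := by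
    refine Ex_mono hQ fun T hT' => ?_
    rw [one_mul]
    refine Real.exp_le_exp.2 (mul_le_mul_of_nonneg_left ?_ hl.le)
    have h2 := crv_fresh (ω := cf D η T) hcd hR hB hse fun i => (hsu i).imp_left (by
      rintro ⟨v, g1, g2, g3, g4⟩
      exact ⟨v, g1, g2, by rw [cf_out g2]; exact g3, g4⟩)
    exact_mod_cast h2
  refine h1.trans ?_
  rw [markov f_markov hQ hED hη (F := fun ω => Real.exp (l *
        ((CrV c d (Op (rest E (VS (Op (Rsq a b c d) ω) s)) ω)).ncard : ℝ)))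
    (G := fun _ => (1 : ℝ)) (fun _ _ _ => rfl)]
  have e1 : C = Ex Q D η (fun _ => C) := (Ex_const hQ _).symm
  rw [e1]
  refine Ex_mono hQ fun T hT' => ?_
  rw [one_mul]
  refine h Q hQ hQ1 a a' b' b c (c + μ) (d - μ) d (by omega) (by omega) (by omega) (by omega)
    (by omega) (by omega) hdV E (cf D η T) s t Finset.inter_subset_right (f_good.1 D η T hη) hse
    (fun v hv hvE hvo => ?_) (fun v hv hvE hvo u hue hvu => ?_)
  · have hvD : v ∉ D := fun h => hvE (Finset.mem_inter.2 ⟨h, hTR hv⟩)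
    rw [cf_out hvD] at hvo
    obtain ⟨u, huo, hvu⟩ := exists_odd v
    obtain ⟨i, hi⟩ := ht v (hTT hv) hvD hvo u huo hvu
    refine ⟨i, u, huo, hvu, rtg_mono (F := {z | z ∈ Rsq a b c d ∧ z ∉ D ∧ η z = false})
      (F' := {z | z ∈ Rsq a b c d ∧ z ∉ E}) (fun z hz => ⟨hz.1, fun h => hz.2.1 (hED h)⟩) hi⟩
  · have hvD : v ∉ D := fun h => hvE (Finset.mem_inter.2 ⟨h, hTR hv⟩)
    rw [cf_out hvD] at hvo
    obtain ⟨i, hi⟩ := hs v (hTT hv) hvD hvo u hue hvu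
    refine ⟨i, rtg_mono (F := {z | z ∈ Rsq a b c d ∧ z ∉ D ∧ η z = true})
      (F' := {z | z ∈ Rsq a b c d ∧ z ∉ E ∧ cf D η T z = true}) (fun z hz =>
        ⟨hz.1, fun h => hz.2.1 (hED h), by rw [cf_out hz.2.1]; exact hz.2.2⟩) hi⟩

end Vale.Agent.P167.H108
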